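import Vale.Agent.P281.H511.TK.Part
import Vale.Agent.P281.H864.K.Compat

/-!
# P281, project T-K, block FLAT (helper511): integration
-/

open Set Filter Metric MeasureTheory Vale.Agent.P272.K Vale.Agent.P281.H64.TK
open scoped Topology ContDiff ComplexConjugate ComplexOrder Manifold

noncomputable section

namespace Vale.Agent.P281.H511.TK

/-- **Gauss**: the integral of a derivative of a function with compact support -/
theorem gauss {d : ℕ} {g : Cm d → ℝ} (hg : ContDiff ℝ 1 g) (hc : HasCompactSupport g)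
    (v : Cm d) : ∫ z, fderiv ℝ g z v = 0 := by
  have hcont : Continuous fun z => fderiv ℝ g z v :=
    (hg.continuous_fderiv (by simp)).clm_apply continuous_const
  have hcs : HasCompactSupport fun z => fderiv ℝ g z v := by
    refine (hc.fderiv (𝕜 := ℝ)).comp_left (g := fun L : Cm d →L[ℝ] ℝ => L v) rfl
  have h1 := integral_mul_fderiv_eq_neg_fderiv_mul_of_integrable (μ := (volume : Measure (Cm d)))
    (f := fun _ : Cm d => (1 : ℝ)) (g := g) (v := v)
    (by simp) (by simpa using hcont.integrable_of_hasCompactSupport hcs)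
    (by simpa using hg.continuous.integrable_of_hasCompactSupport hc)
    (fun x _ => differentiableAt_const _) (fun x _ => hg.differentiable (by simp) x)
  simpa using h1

/-- differentiation under the integral, over a compact ball -/
theorem deriv_int {d : ℕ} {G : ℝ × Cm d → ℝ} {ε : ℝ} (hε : 0 < ε)
    (hG : ∀ s, |s| < ε → ∀ z ∈ ball (0 : Cm d) 3, ContDiffAt ℝ 1 G (s, z)) :
    HasDerivAt (fun s => ∫ z in closedBall (0 : Cm d) 2, G (s, z))
      (∫ z in closedBall (0 : Cm d) 2, fderiv ℝ G (0, z) (1, 0)) 0 := by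
  have h23 : closedBall (0 : Cm d) 2 ⊆ ball 0 3 := closedBall_subset_ball (by norm_num)
  have hcd : ∀ s, |s| < ε → ∀ z ∈ ball (0 : Cm d) 3, ContinuousAt (fun q => fderiv ℝ G q) (s, z) :=
    fun s hs z hz => ((hG s hs z hz).fderiv_right (m := 0) (by simp)).continuousAt
  set K : Set (ℝ × Cm d) := closedBall (0 : ℝ) (ε / 2) ×ˢ closedBall (0 : Cm d) 2 with hK
  have hKc : IsCompact K := (isCompact_closedBall _ _).prod (isCompact_closedBall _ _)
  have hKs : ∀ q ∈ K, |q.1| < ε ∧ q.2 ∈ ball (0 : Cm d) 3 := by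
    rintro ⟨s, z⟩ ⟨h1, h2⟩
    refine ⟨?_, h23 h2⟩
    have h1' : s ∈ closedBall (0 : ℝ) (ε / 2) := h1
    rw [mem_closedBall, dist_zero_right, Real.norm_eq_abs] at h1'
    show |s| < ε
    linarith
  have hcont : ContinuousOn (fun q => fderiv ℝ G q (1, 0)) K := by
    rintro q hq
    have h1 := hcd q.1 (hKs q hq).1 q.2 (hKs q hq).2
    exact (ContinuousAt.clm_apply h1 continuousAt_const).continuousWithinAt
  obtain ⟨C, hC⟩ := hKc.exists_bound_of_continuousOn hcont
  have hsl : ∀ s, |s| < ε → ContinuousOn (fun z => G (s, z)) (closedBall (0 : Cm d) 2) := by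
    intro s hs z hz
    have h1 := (hG s hs z (h23 hz)).continuousAt
    exact (ContinuousAt.comp_of_eq (f := fun z : Cm d => (s, z)) h1 (by fun_prop)
      rfl).continuousWithinAt
  have hsl' : ContinuousOn (fun z => fderiv ℝ G (0, z) (1, 0)) (closedBall (0 : Cm d) 2) := by
    intro z hz
    have h1 := hcd 0 (by simpa using hε) z (h23 hz)
    have h2 : ContinuousAt (fun z : Cm d => fderiv ℝ G (0, z)) z :=
      ContinuousAt.comp_of_eq (f := fun z : Cm d => ((0 : ℝ), z)) h1 (by fun_prop) rfl
    exact (ContinuousAt.clm_apply h2 continuousAt_const).continuousWithinAt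
  have h0 : |(0 : ℝ)| < ε := by simpa using hε
  refine (hasDerivAt_integral_of_dominated_loc_of_deriv_le (μ := volume.restrict
    (closedBall (0 : Cm d) 2)) (F := fun s z => G (s, z)) (F' := fun s z => fderiv ℝ G (s, z) (1, 0))
    (bound := fun _ => C) (s := ball (0 : ℝ) (ε / 2)) (ball_mem_nhds _ (by positivity)) ?_ ?_ ?_ ?_
    ?_ ?_).2
  · filter_upwards [ball_mem_nhds (0 : ℝ) hε] with s hs
    rw [mem_ball, dist_zero_right, Real.norm_eq_abs] at hs
    exact (hsl s hs).aestronglyMeasurable measurableSet_closedBall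
  · exact (hsl 0 h0).integrableOn_compact (isCompact_closedBall _ _)
  · exact hsl'.aestronglyMeasurable measurableSet_closedBall
  · rw [ae_restrict_iff' measurableSet_closedBall]
    refine Eventually.of_forall fun z hz s hs => ?_
    exact hC (s, z) ⟨ball_subset_closedBall hs, hz⟩
  · exact integrableOn_const (by
      have := (isCompact_closedBall (0 : Cm d) 2).measure_lt_top (μ := volume)
      exact this.ne)
  · rw [ae_restrict_iff' measurableSet_closedBall]
    refine Eventually.of_forall fun z hz s hs => ?_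
    have hs' : |s| < ε := by
      rw [mem_ball, dist_zero_right, Real.norm_eq_abs] at hs
      linarith
    have h1 := ((hG s hs' z (h23 hz)).differentiableAt (by simp)).hasFDerivAt
    have h2 : HasDerivAt (fun s : ℝ => (s, z)) ((1 : ℝ), (0 : Cm d)) s :=
      (hasDerivAt_id s).prodMk (hasDerivAt_const s z)
    exact HasFDerivAt.comp_hasDerivAt s (f := fun s : ℝ => (s, z)) h1 h2

variable {d : ℕ} {E Γ : Type} [TopologicalSpace E] [Group Γ] [MulAction Γ E]

/-- `D` is the density of a form of top degree -/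
def IsDens (S : Sheets d E Γ) (D : Fin S.N → Cm d → ℝ) : Prop :=
  ∀ i j, ∀ z ∈ ball (0 : Cm d) 3, ∀ w ∈ ball (0 : Cm d) 3, ∀ (γ : Γ) (θ : Cm d → Cm d),
    AnalyticAt ℂ θ z → θ z = w → (∀ᶠ u in 𝓝 z, S.σ i u = γ • S.σ j (θ u)) →
      D i z = ‖(jac θ z).det‖ ^ 2 * D j w

/-- the integral of a density with support in one sheet -/
theorem int_piece [ContinuousConstSMul Γ E] (S : Sheets d E Γ) {D : Fin S.N → Cm d → ℝ}
    (hD : ∀ j, ContinuousOn (D j) (ball 0 3)) (hd : IsDens S D) (i : Fin S.N)
    (hs : ∀ j, ∀ z ∈ ball (0 : Cm d) 3, D j z ≠ 0 →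
      ∃ (γ : Γ) (w : Cm d), ‖w‖ ≤ 2 ∧ γ • S.σ i w = S.σ j z) :
    ∫ z in closedBall (0 : Cm d) 2, D i z = ∑ j, ∫ z in S.P j, D j z := by
  have h23 : closedBall (0 : Cm d) 2 ⊆ ball 0 3 := closedBall_subset_ball (by norm_num)
  have hn : H864.K.Nice S (S.σ i) (closedBall (0 : Cm d) 2) :=
    (H864.K.nice_self S i).mono h23 measurableSet_closedBall
  have h1 := H864.K.int_family (S := S) (M := 1) (q := fun _ => S.σ i)
    (A := fun _ => closedBall (0 : Cm d) 2) (fun _ => hn)
    (fun k l hkl => absurd (Subsingleton.elim k l) hkl) (D := D) (g := fun _ => D i)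
    (fun j => H864.K.integrableOn_P S j (hD j))
    (fun _ => ((hD i).mono h23).integrableOn_compact (isCompact_closedBall _ _))
    (fun _ j v hv => by
      obtain ⟨hv2, γ, z, hz, he⟩ := hv
      have hz3 : z ∈ ball (0 : Cm d) 3 := H864.K.P_subset3 S j hz
      obtain ⟨θ, h1, h2, h3⟩ := S.hol i j v (h23 hv2) z hz3 γ he.symm
      have h4 : ∀ᶠ u in 𝓝 v, H864.K.co S j (S.σ i u) = θ u := by
        filter_upwards [h3, h1.continuousAt.eventually (isOpen_ball.mem_nhds
          (by rw [h2]; exact hz3))] with u h5 h6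
        exact H864.K.co_eq h6 h5.symm
      have h5 : H864.K.jd S (S.σ i) j v = fderiv ℝ θ v := Filter.EventuallyEq.fderiv_eq h4
      rw [h5, H864.K.det_fderiv_real h1.differentiableAt, abs_of_nonneg (by positivity),
        smul_eq_mul, h4.self_of_nhds]
      exact hd i j v (h23 hv2) (θ v) (by rw [h2]; exact hz3) γ θ h1 rfl h3)
    (fun j z hz hne => by
      obtain ⟨γ, w, hw, he⟩ := hs j z (H864.K.P_subset3 S j hz) hne
      exact ⟨0, γ, w, by simpa using hw, he⟩)
  simpa using h1

end Vale.Agent.P281.H511.TK
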