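import Vale.Agent.P281.H511.TK.Flat
import Vale.Agent.P281.H399.K.Alg1
import Vale.Agent.P281.H399.K.Alg2
import Vale.Agent.P281.H603.K.Alg3
import Vale.Agent.P281.H603.K.Alg5
import Vale.Agent.P281.H603.K.Alg6
import Vale.Agent.P281.H603.K.FlD
import Vale.Agent.P281.H125.KH.C2

/-! P281, project T-K, block FLAT (helper511), final form -/

namespace Vale.Agent.P281.H511.TK

/-- **FLAT** -/
theorem flatStmt : H64.TK.FlatStmt :=
  flat H399.K.alg1 H399.K.alg2 (H603.K.alg3 H399.K.alg1) H603.K.alg5 H603.K.alg6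
    (H603.K.flD H125.KH.c2)

end Vale.Agent.P281.H511.TK
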