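import Vale.Agent.P281.H511.TK.Stk
import Vale.Agent.P281.H864.K.E1
import Vale.Agent.P281.H603.K.Fib
import Vale.Agent.P281.H603.K.Lin

/-!
# P281, project T-K, block FLAT (helper511): the form of the real periods is flat
-/

open Set Filter Metric MeasureTheory Vale.Agent.P272.K Vale.Agent.P281.H64.TK
open scoped Topology ContDiff ComplexConjugate ComplexOrder Manifold Matrix

noncomputable section

namespace Vale.Agent.P281.H511.TK

section one
variable {d : ℕ} {E Γ : Type} [TopologicalSpace E] [Group Γ] [MulAction Γ E]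

theorem fderiv_dd {f : Cm d → ℂ} {z : Cm d} (ζ : Cm d) :
    fderiv ℂ f z ζ = ∑ k, dd k f z * ζ k := by
  unfold dd
  conv_lhs => rw [← Finset.univ_sum_single ζ]
  rw [map_sum]
  refine Finset.sum_congr rfl fun l _ => ?_
  have h7 : (Pi.single l (ζ l) : Cm d) = (ζ l) • (Pi.single l 1 : Cm d) := by
    rw [← Pi.single_smul, smul_eq_mul, mul_one]
  rw [h7, map_smul, smul_eq_mul, mul_comm]

theorem herm_const (S : Sheets d E Γ) (w : Fin S.N → Cm d → Matrix (Fin d) (Fin d) ℂ) (x : ℂ)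
    (h' : E → ℂ) : S.herm w (fun _ => x) h' = 0 := by
  rw [H864.K.herm_eq]
  unfold Sheets.int
  refine Finset.sum_eq_zero fun i _ => ?_
  have h1 : ∀ z, H864.K.hd (w i z) (H864.K.gr S (fun _ => x) i z) (H864.K.gr S h' i z) = 0 := by
    intro z
    have h2 : H864.K.gr S (fun _ => x) i z = 0 := by
      funext k
      simp [H864.K.gr, dd]
    rw [h2, H864.K.hd_eq, Matrix.mulVec_zero, dotProduct_zero, mul_zero]
  simp only [h1, integral_zero]

variable [ContinuousConstSMul Γ E]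

/-- real linearity -/
theorem herm_sum (S : Sheets d E Γ) {w : Fin S.N → Cm d → Matrix (Fin d) (Fin d) ℂ}
    (hw : Kah S w) {n : ℕ} {H : Fin n → E → ℂ} {C : Fin n → Γ → ℂ} (hH : ∀ k, Add S (H k) (C k))
    {h' : E → ℂ} {c' : Γ → ℂ} (h1 : Add S h' c') (a : Fin n → ℝ) (x : ℂ) :
    (S.herm w (fun e => ∑ k, (a k : ℂ) * H k e + x) h').im =
      ∑ k, a k * (S.herm w (H k) h').im := by
  have hx : Add S (fun _ => x) (fun _ => 0) := ⟨fun _ => differentiableOn_const _, by simp⟩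
  have key : ∀ s : Finset (Fin n), (∃ c : Γ → ℂ, Add S (fun e => ∑ k ∈ s, (a k : ℂ) * H k e + x) c) ∧
      (S.herm w (fun e => ∑ k ∈ s, (a k : ℂ) * H k e + x) h').im =
        ∑ k ∈ s, a k * (S.herm w (H k) h').im := by
    classical
    intro s
    induction s using Finset.induction_on with
    | empty =>
      simp only [Finset.sum_empty, zero_add]
      exact ⟨⟨_, hx⟩, by rw [herm_const]; rfl⟩
    | insert k s hk ih =>
      obtain ⟨⟨c, hc⟩, ih⟩ := ih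
      have h2 : (fun e => ∑ k ∈ insert k s, (a k : ℂ) * H k e + x) =
          fun e => (a k : ℂ) * H k e + (∑ k ∈ s, (a k : ℂ) * H k e + x) := by
        funext e
        rw [Finset.sum_insert hk, add_assoc]
      rw [h2]
      refine ⟨⟨_, H603.K.add_add (H603.K.add_smul' _ (hH k)) hc⟩, ?_⟩
      rw [H864.K.lin1 S hw (a k : ℂ) (hH k) hc h1, Complex.add_im, ih, Finset.sum_insert hk,
        Complex.im_ofReal_mul]
  exact (key Finset.univ).2

theorem herm_antisymm (S : Sheets d E Γ) {w : Fin S.N → Cm d → Matrix (Fin d) (Fin d) ℂ}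
    (hw : Kah S w) (h h' : E → ℂ) : (S.herm w h' h).im = - (S.herm w h h').im := by
  rw [H864.K.symm1 S hw, Complex.conj_im]

omit [ContinuousConstSMul Γ E] in
theorem mark_re [Nonempty E] {S : Sheets d E Γ} {n : ℕ} (M : H64.Mark Γ n) {h : E → ℂ}
    {c : Γ → ℂ} (hh : Add S h c) (γ : Γ) : (c γ).re = ∑ k, (c (M.g k)).re * M.φ k γ :=
  M.complete (fun γ => (c γ).re) (fun x y => by rw [H603.K.add_hom hh, Complex.add_re]) γ

/-- every additive function is a real combination of those with the periods `M.φ k` -/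
theorem exists_decomp [PreconnectedSpace E] [Nonempty E] (S : Sheets d E Γ) {n : ℕ}
    (M : H64.Mark Γ n) {H : Fin n → E → ℂ} {C : Fin n → Γ → ℂ} (hH : ∀ k, Add S (H k) (C k))
    (hC : ∀ k γ, (C k γ).re = M.φ k γ) {h : E → ℂ} {c : Γ → ℂ} (hh : Add S h c) :
    ∃ x : ℂ, h = fun e => ∑ k, (((c (M.g k)).re : ℝ) : ℂ) * H k e + x := by
  have h1 := H603.K.add_sum hH (fun k => (((c (M.g k)).re : ℝ) : ℂ))
  have h2 := H603.K.add_add hh (H603.K.add_smul' (-1) h1)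
  have h3 : ∀ γ, (c γ + -1 * ∑ k, (((c (M.g k)).re : ℝ) : ℂ) * C k γ).re = 0 := by
    intro γ
    have h4 : (∑ k, (((c (M.g k)).re : ℝ) : ℂ) * C k γ).re = (c γ).re := by
      rw [Complex.re_sum, mark_re M hh γ]
      refine Finset.sum_congr rfl fun k _ => ?_
      rw [Complex.re_ofReal_mul, hC]
    rw [Complex.add_re, neg_one_mul, Complex.neg_re, h4, add_neg_cancel]
  obtain ⟨e₀⟩ := ‹Nonempty E›
  refine ⟨h e₀ + -1 * ∑ k, (((c (M.g k)).re : ℝ) : ℂ) * H k e₀, ?_⟩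
  funext e
  have h5 := H603.K.unique_of_re S h2 h3 e e₀
  rw [← h5]
  ring

/-- the form of the real periods, in a basis -/
theorem hasForm_of [PreconnectedSpace E] [Nonempty E] (S : Sheets d E Γ)
    {w : Fin S.N → Cm d → Matrix (Fin d) (Fin d) ℂ} (hw : Kah S w) {n : ℕ}
    (M : H64.Mark Γ n) {H : Fin n → E → ℂ} {C : Fin n → Γ → ℂ} (hH : ∀ k, Add S (H k) (C k))
    (hC : ∀ k γ, (C k γ).re = M.φ k γ) {B : Matrix (Fin n) (Fin n) ℝ}
    (hB : ∀ k l, (S.herm w (H k) (H l)).im = B k l) : HasForm S w M B := by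
  intro h c h' c' hh hh'
  obtain ⟨x, hx⟩ := exists_decomp S M hH hC hh
  obtain ⟨x', hx'⟩ := exists_decomp S M hH hC hh'
  conv_lhs => rw [hx]
  rw [herm_sum S hw hH hh']
  refine Finset.sum_congr rfl fun k _ => ?_
  rw [herm_antisymm S hw h' (H k)]
  conv_lhs => rw [hx']
  rw [herm_sum S hw hH (hH k), mul_neg, Finset.mul_sum, ← Finset.sum_neg_distrib]
  refine Finset.sum_congr rfl fun l _ => ?_
  rw [herm_antisymm S hw (H k) (H l), hB]
  ring

omit [ContinuousConstSMul Γ E] in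
theorem hasForm_apply (S : Sheets d E Γ) {w : Fin S.N → Cm d → Matrix (Fin d) (Fin d) ℂ}
    {n : ℕ} (M : H64.Mark Γ n) {H : Fin n → E → ℂ} {C : Fin n → Γ → ℂ}
    (hH : ∀ k, Add S (H k) (C k)) (hC : ∀ k γ, (C k γ).re = M.φ k γ)
    {B : Matrix (Fin n) (Fin n) ℝ} (hB : HasForm S w M B) (k l : Fin n) :
    (S.herm w (H k) (H l)).im = B k l := by
  rw [hB _ _ _ _ (hH k) (hH l)]
  simp [hC, M.dual]

end one

variable {p d : ℕ} {E Γ : Type} [TopologicalSpace E] [Group Γ] [MulAction Γ E]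

/-- the Hermitian form on the manifold number `t` -/
def hm (𝓕 : Fam p d E Γ)
    (W : Fin 𝓕.N → Cm p × Cm d → Matrix (Fin p ⊕ Fin d) (Fin p ⊕ Fin d) ℂ) (t : Cm p)
    (h h' : E → ℂ) : ℂ :=
  ∑ i, ∫ z in PP 𝓕 t i, (fibW W t i z).det * ((fibW W t i z)⁻¹ * Matrix.of fun j k =>
    dd j (fun z => h (𝓕.σ i t z)) z * conj (dd k (fun z => h' (𝓕.σ i t z)) z)).trace

variable {𝓕 : Fam p d E Γ}
  {W : Fin 𝓕.N → Cm p × Cm d → Matrix (Fin p ⊕ Fin d) (Fin p ⊕ Fin d) ℂ} {t τ : Cm p}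
  {T' : Set (Cm p)}

theorem hm_eq (ht : t ∈ 𝓕.T) (h h' : E → ℂ) :
    (𝓕.at t ht).herm (fibW W t) h h' = hm 𝓕 W t h h' := rfl

/-- a smooth family of additive functions with constant real periods -/
structure CF (𝓕 : Fam p d E Γ) (T' : Set (Cm p)) (H : Cm p → E → ℂ) (φ : Γ → ℝ) : Prop where
  sub : T' ⊆ 𝓕.T
  add : ∀ (t : Cm p) (ht : t ∈ T'), ∃ c : Γ → ℂ, Add (𝓕.at t (sub ht)) (H t) c ∧
    ∀ γ, (c γ).re = φ γ
  smooth : ∀ i, ∀ t ∈ T', ∀ z ∈ ball (0 : Cm d) 3,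
    ContDiffAt ℝ ∞ (fun q : Cm p × Cm d => H q.1 (𝓕.σ i q.1 q.2)) (t, z)

theorem CF.re {H : Cm p → E → ℂ} {φ : Γ → ℝ} (hH : CF 𝓕 T' H φ) :
    SF 𝓕 T' (fun t e => (H t e).re) φ where
  smooth i t ht z hz := Complex.reCLM.contDiff.contDiffAt.comp _ (hH.smooth i t ht z hz)
  add t ht γ e := by
    obtain ⟨c, h1, h2⟩ := hH.add t ht
    show (H t (γ • e)).re = _
    rw [h1.add, Complex.add_re, h2]

/-- the derivative along the fibre of the real part -/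
theorem fderiv_UU {H : Cm p → E → ℂ} {φ : Γ → ℝ} (hH : CF 𝓕 T' H φ) (i : Fin 𝓕.N) {s : ℝ}
    (hs : par t τ s ∈ T') {z : Cm d} (hz : z ∈ ball (0 : Cm d) 3) (ζ : Cm d) :
    fderiv ℝ (UU 𝓕 t τ (fun t e => (H t e).re) i) (s, z) (0, ζ) =
      (∑ k, dd k (fun z => H (par t τ s) (𝓕.σ i (par t τ s) z)) z * ζ k).re := by
  obtain ⟨c, hc, -⟩ := hH.add _ hs
  have h1 : HasFDerivAt (UU 𝓕 t τ (fun t e => (H t e).re) i)
      (fderiv ℝ (UU 𝓕 t τ (fun t e => (H t e).re) i) (s, z)) (s, z) :=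
    ((UU_smooth hH.re i hs hz).differentiableAt (by simp)).hasFDerivAt
  have h2 : HasFDerivAt (fun z : Cm d => (s, z)) (ContinuousLinearMap.inr ℝ ℝ (Cm d)) z :=
    hasFDerivAt_prodMk_right _ _
  have h3 := h1.comp z h2
  have h4 : HasFDerivAt (fun z => H (par t τ s) (𝓕.σ i (par t τ s) z))
      (fderiv ℂ (fun z => H (par t τ s) (𝓕.σ i (par t τ s) z)) z) z :=
    ((hc.hol i).differentiableAt (isOpen_ball.mem_nhds hz)).hasFDerivAt
  have h5 := Complex.reCLM.hasFDerivAt.comp z (h4.restrictScalars ℝ)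
  have h6 := h3.unique h5
  have h7 := congrArg (fun L : Cm d →L[ℝ] ℝ => L ζ) h6
  rw [← fderiv_dd]
  exact h7

/-- the first component of the vector field is the density of the Hermitian form -/
theorem VV_fst {κ : ℕ → ℝ} (hκ : ∀ (d : ℕ) (hd : 0 < d) (w : Matrix (Fin d) (Fin d) ℂ)
    (v v' : Cm d) (b : Fin d → Bi d), w.PosDef →
    (∀ ζ ζ' : Cm d, b ⟨0, hd⟩ (0, ζ) (0, ζ') = (∑ k, v k * ζ k).re * (∑ k, v' k * ζ' k).re) →
    (∀ k, k ≠ ⟨0, hd⟩ → ∀ ζ ζ' : Cm d,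
      b k (0, ζ) (0, ζ') = (∑ i, ∑ j, w i j * ζ i * conj (ζ' j)).im) →
    (vec b).1 = κ d * (w.det * (w⁻¹ * Matrix.of fun j k => v j * conj (v' k)).trace).im)
    (hd : 0 < d) (hW : KFam 𝓕 W) {H H' : Cm p → E → ℂ} {φ φ' : Γ → ℝ} (hH : CF 𝓕 T' H φ)
    (hH' : CF 𝓕 T' H' φ') (i : Fin 𝓕.N) {s : ℝ} (hs : par t τ s ∈ T') {z : Cm d}
    (hz : z ∈ ball (0 : Cm d) 3) :
    (VV 𝓕 W t τ (fun t e => (H t e).re) (fun t e => (H' t e).re) i (s, z)).1 =
      κ d * ((fibW W (par t τ s) i z).det * ((fibW W (par t τ s) i z)⁻¹ * Matrix.of fun j k =>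
        dd j (fun z => H (par t τ s) (𝓕.σ i (par t τ s) z)) z *
          conj (dd k (fun z => H' (par t τ s) (𝓕.σ i (par t τ s) z)) z)).trace).im := by
  refine hκ d hd _ (fun j => dd j (fun z => H (par t τ s) (𝓕.σ i (par t τ s) z)) z)
    (fun j => dd j (fun z => H' (par t τ s) (𝓕.σ i (par t τ s) z)) z) _
    ((H603.K.kah_fib hW (hH.sub hs)).posDef i z hz) ?_ ?_
  · intro ζ ζ'
    unfold bb
    simp only [if_true]
    rw [ContinuousLinearMap.smulRight_apply, smul_apply, smul_eq_mul,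
      fderiv_UU hH i hs hz, fderiv_UU hH' i hs hz]
  · intro k hk ζ ζ'
    have hk0 : ¬ k.val = 0 := fun h => hk (Fin.ext h)
    unfold bb
    simp only [hk0, if_false]
    rw [imForm_apply]
    congr 1
    simp only [Fintype.sum_sum_type, tv, Sum.elim_inl, Sum.elim_inr, Complex.ofReal_zero, zero_mul,
      mul_zero, map_zero, Finset.sum_const_zero, zero_add]
    rfl

/-- the integral of the density -/
theorem form_eq [ContinuousConstSMul Γ E] {κ : ℕ → ℝ}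
    (hκ : ∀ (d : ℕ) (hd : 0 < d) (w : Matrix (Fin d) (Fin d) ℂ)
    (v v' : Cm d) (b : Fin d → Bi d), w.PosDef →
    (∀ ζ ζ' : Cm d, b ⟨0, hd⟩ (0, ζ) (0, ζ') = (∑ k, v k * ζ k).re * (∑ k, v' k * ζ' k).re) →
    (∀ k, k ≠ ⟨0, hd⟩ → ∀ ζ ζ' : Cm d,
      b k (0, ζ) (0, ζ') = (∑ i, ∑ j, w i j * ζ i * conj (ζ' j)).im) →
    (vec b).1 = κ d * (w.det * (w⁻¹ * Matrix.of fun j k => v j * conj (v' k)).trace).im)
    (hd : 0 < d) (hW : KFam 𝓕 W) {H H' : Cm p → E → ℂ} {φ φ' : Γ → ℝ} (hH : CF 𝓕 T' H φ)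
    (hH' : CF 𝓕 T' H' φ') {s : ℝ} (hs : par t τ s ∈ T') :
    ∑ j, ∫ z in PP 𝓕 (par t τ s) j,
      (VV 𝓕 W t τ (fun t e => (H t e).re) (fun t e => (H' t e).re) j (s, z)).1 =
      κ d * (hm 𝓕 W (par t τ s) (H (par t τ s)) (H' (par t τ s))).im := by
  obtain ⟨c, hc, -⟩ := hH.add _ hs
  obtain ⟨c', hc', -⟩ := hH'.add _ hs
  have hk := H603.K.kah_fib hW (hH.sub hs)
  unfold hm
  rw [Complex.im_sum, Finset.mul_sum]
  refine Finset.sum_congr rfl fun j _ => ?_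
  have hint := H864.K.integrableOn_P (𝓕.at _ (hH.sub hs)) j
    (H864.K.continuousOn_dens hk hc hc' j)
  have h1 := Complex.imCLM.integral_comp_comm hint
  have h2 : (∫ z in PP 𝓕 (par t τ s) j, (fibW W (par t τ s) j z).det *
      ((fibW W (par t τ s) j z)⁻¹ * Matrix.of fun a b =>
        dd a (fun z => H (par t τ s) (𝓕.σ j (par t τ s) z)) z *
          conj (dd b (fun z => H' (par t τ s) (𝓕.σ j (par t τ s) z)) z)).trace).im =
      ∫ z in PP 𝓕 (par t τ s) j, ((fibW W (par t τ s) j z).det *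
      ((fibW W (par t τ s) j z)⁻¹ * Matrix.of fun a b =>
        dd a (fun z => H (par t τ s) (𝓕.σ j (par t τ s) z)) z *
          conj (dd b (fun z => H' (par t τ s) (𝓕.σ j (par t τ s) z)) z)).trace).im := h1.symm
  rw [h2, ← integral_const_mul]
  refine setIntegral_congr_fun (H864.K.meas_P (𝓕.at _ (hH.sub hs)) j) fun z hz => ?_
  exact VV_fst hκ hd hW hH hH' j hs (H864.K.P_subset3 (𝓕.at _ (hH.sub hs)) j hz)

theorem par_par {p : ℕ} (t τ : Cm p) (s r : ℝ) : par (par t τ s) τ r = par t τ (s + r) := by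
  unfold par
  rw [add_assoc, ← add_smul]
  push_cast
  rfl

/-- local constancy -/
theorem hm_const [ContinuousConstSMul Γ E] (hA1 : Alg1Stmt) (hA2 : Alg2Stmt) (hA3 : Alg3Stmt)
    (hA5 : Alg5Stmt) (hA6 : Alg6Stmt) (hd : 0 < d) (hT'o : IsOpen T') (hW : KFam 𝓕 W)
    {H H' : Cm p → E → ℂ} {φ φ' : Γ → ℝ} (hH : CF 𝓕 T' H φ) (hH' : CF 𝓕 T' H' φ')
    {t₀ t₁ : Cm p} {r : ℝ} (hr : ball t₀ r ⊆ T') (ht₁ : t₁ ∈ ball t₀ r) :
    (hm 𝓕 W t₁ (H t₁) (H' t₁)).im = (hm 𝓕 W t₀ (H t₀) (H' t₀)).im := by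
  obtain ⟨κ, hκ0, hκ⟩ := hA3
  set τ : Cm p := t₁ - t₀ with hτ
  have hmem : ∀ s ∈ Icc (0 : ℝ) 1, par t₀ τ s ∈ T' := by
    intro s hs
    refine hr ?_
    rw [mem_ball, dist_eq_norm] at ht₁ ⊢
    have h1 : par t₀ τ s - t₀ = (s : ℂ) • (t₁ - t₀) := by
      unfold par
      rw [add_sub_cancel_left]
    rw [h1, norm_smul, Complex.norm_real, Real.norm_eq_abs, abs_of_nonneg hs.1]
    calc s * ‖t₁ - t₀‖ ≤ 1 * ‖t₁ - t₀‖ := by gcongr; exact hs.2
      _ < r := by rwa [one_mul]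
  set f : ℝ → ℝ := fun s => (hm 𝓕 W (par t₀ τ s) (H (par t₀ τ s)) (H' (par t₀ τ s))).im with hf
  have hder : ∀ s ∈ Icc (0 : ℝ) 1, HasDerivAt f 0 s := by
    intro s hs
    have h1 := stokes (τ := τ) hA1 hA2 hA5 hA6 hT'o hW hH.sub hH.re hH'.re (hmem s hs)
    have h2 : HasDerivAt (fun r => κ d * (hm 𝓕 W (par (par t₀ τ s) τ r)
        (H (par (par t₀ τ s) τ r)) (H' (par (par t₀ τ s) τ r))).im) 0 0 := by
      refine h1.congr_of_eventuallyEq ?_
      have h3 : ∀ᶠ r in 𝓝 (0 : ℝ), par (par t₀ τ s) τ r ∈ T' := by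
        refine (hasDerivAt_par _ τ 0).continuousAt.eventually (hT'o.mem_nhds ?_)
        show par (par t₀ τ s) τ 0 ∈ T'
        rw [par_zero]
        exact hmem s hs
      filter_upwards [h3] with r hr
      exact (form_eq hκ hd hW hH hH' hr).symm
    have h3 := h2.const_mul (κ d)⁻¹
    have h4 : (fun r => (κ d)⁻¹ * (κ d * (hm 𝓕 W (par (par t₀ τ s) τ r)
        (H (par (par t₀ τ s) τ r)) (H' (par (par t₀ τ s) τ r))).im)) = fun r => f (s + r) := by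
      funext r
      rw [inv_mul_cancel_left₀ (hκ0 d), par_par]
    rw [h4, mul_zero] at h3
    have h5 : HasDerivAt (fun r => f (s + r)) 0 (s - s) := by
      rwa [sub_self]
    have h6 := HasDerivAt.comp_sub_const s s h5
    simpa using h6
  have h1 := constant_of_has_deriv_right_zero (f := f) (a := 0) (b := 1)
    (fun s hs => (hder s hs).continuousAt.continuousWithinAt)
    (fun s hs => (hder s (Ico_subset_Icc_self hs)).hasDerivWithinAt) 1 (by simp)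
  have h2 : par t₀ τ 1 = t₁ := by
    unfold par
    rw [hτ, Complex.ofReal_one, one_smul, add_sub_cancel]
  have h3 : par t₀ τ 0 = t₀ := par_zero _ _
  simp only [hf, h2, h3] at h1
  exact h1

/-- **FLAT** -/
theorem flat (hA1 : Alg1Stmt) (hA2 : Alg2Stmt) (hA3 : Alg3Stmt)
    (hA5 : Alg5Stmt) (hA6 : Alg6Stmt) (hF : FlDStmt) : FlatStmt := by
  intro p d E Γ _ _ _ _ _ _ 𝓕 W hd hW n M
  set HF : Cm p → Matrix (Fin n) (Fin n) ℝ → Prop := fun t B =>
    ∃ ht : t ∈ 𝓕.T, HasForm (𝓕.at t ht) (fibW W t) M B with hHF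
  -- uniqueness
  have huniq : ∀ t B B', HF t B → HF t B' → B = B' := by
    rintro t B B' ⟨ht, h1⟩ ⟨_, h2⟩
    obtain ⟨T', hT', H, -, ht', h3, -⟩ := hF p d E Γ 𝓕 W hd hW n M t ht
    have h4 := fun k => h3 k t ht'
    choose C hC1 hC2 using h4
    ext k l
    rw [← hasForm_apply (𝓕.at t ht) M hC1 hC2 h1, ← hasForm_apply (𝓕.at t ht) M hC1 hC2 h2]
  -- local existence
  have hloc : ∀ t₀ ∈ 𝓕.T, ∃ B, ∀ᶠ t in 𝓝 t₀, HF t B := by
    intro t₀ ht₀
    obtain ⟨T', hT', H, hT'o, ht', h3, h4⟩ := hF p d E Γ 𝓕 W hd hW n M t₀ ht₀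
    have hCF : ∀ k, CF 𝓕 T' (H k) (fun γ => M.φ k γ) := fun k => ⟨hT', h3 k, h4 k⟩
    obtain ⟨r, hr, hrT⟩ := Metric.isOpen_iff.1 hT'o t₀ ht'
    refine ⟨Matrix.of fun k l => (hm 𝓕 W t₀ (H k t₀) (H l t₀)).im, ?_⟩
    filter_upwards [ball_mem_nhds t₀ hr] with t ht
    have h5 := fun k => h3 k t (hrT ht)
    choose C hC1 hC2 using h5
    refine ⟨hT' (hrT ht), hasForm_of (𝓕.at t _) (H603.K.kah_fib hW _) M hC1 hC2 fun k l => ?_⟩
    rw [hm_eq]
    exact hm_const hA1 hA2 hA3 hA5 hA6 hd hT'o hW (hCF k) (hCF l) hrT ht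
  by_cases hne : 𝓕.T.Nonempty
  · obtain ⟨t₀, ht₀⟩ := hne
    obtain ⟨B₀, hB₀⟩ := hloc t₀ ht₀
    have h0 : HF t₀ B₀ := hB₀.self_of_nhds
    refine ⟨B₀, ?_⟩
    have hopen : ∀ P : Matrix (Fin n) (Fin n) ℝ → Prop, IsOpen {t | ∃ B, P B ∧ HF t B} := by
      intro P
      rw [isOpen_iff_mem_nhds]
      rintro t ⟨B, hB, h1⟩
      obtain ⟨B', hB'⟩ := hloc t h1.choose
      have h2 : B' = B := huniq t B' B hB'.self_of_nhds h1
      rw [h2] at hB'
      filter_upwards [hB'] with t' ht'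
      exact ⟨B, hB, ht'⟩
    have h1 := isPreconnected_iff_subset_of_disjoint.1 𝓕.conn _ _ (hopen fun B => B = B₀)
      (hopen fun B => B ≠ B₀) (fun t ht => by
        obtain ⟨B, hB⟩ := hloc t ht
        by_cases h : B = B₀
        · exact Or.inl ⟨B, h, hB.self_of_nhds⟩
        · exact Or.inr ⟨B, h, hB.self_of_nhds⟩) (by
        rw [Set.eq_empty_iff_forall_notMem]
        rintro t ⟨-, ⟨B, hB, h2⟩, ⟨B', hB', h3⟩⟩
        exact hB' ((huniq t B' B h3 h2).trans hB))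
    rcases h1 with h1 | h1
    · intro t ht
      obtain ⟨B, hB, h2⟩ := h1 ht
      rw [← hB]
      exact h2.choose_spec
    · obtain ⟨B, hB, h2⟩ := h1 ht₀
      exact absurd (huniq t₀ B B₀ h2 h0) hB
  · exact ⟨0, fun t ht => absurd ⟨t, ht⟩ hne⟩

end Vale.Agent.P281.H511.TK
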