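import Vale.Agent.P281.H511.TK.Loc

/-!
# P281, project T-K, block FLAT (helper511): the vector fields `V i`
-/

open Set Filter Metric MeasureTheory Vale.Agent.P272.K Vale.Agent.P281.H64.TK
open scoped Topology ContDiff ComplexConjugate ComplexOrder Manifold

noncomputable section

namespace Vale.Agent.P281.H511.TK

/-- the tangent vector `(s τ, ζ)` -/
def tv {p d : ℕ} (τ : Cm p) (x : ℝ × Cm d) : Fin p ⊕ Fin d → ℂ :=
  Sum.elim (fun k => (x.1 : ℂ) * τ k) x.2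

theorem tv_add {p d : ℕ} (τ : Cm p) (x y : ℝ × Cm d) (i : Fin p ⊕ Fin d) :
    tv τ (x + y) i = tv τ x i + tv τ y i := by
  cases i with
  | inl k => simp [tv, add_mul]
  | inr k => simp [tv]

theorem tv_smul {p d : ℕ} (τ : Cm p) (c : ℝ) (x : ℝ × Cm d) (i : Fin p ⊕ Fin d) :
    tv τ (c • x) i = (c : ℂ) * tv τ x i := by
  cases i with
  | inl k => simp [tv, mul_assoc]
  | inr k => simp [tv]

theorem exists_imForm {p d : ℕ} (τ : Cm p) (W : Matrix (Fin p ⊕ Fin d) (Fin p ⊕ Fin d) ℂ) :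
    ∃ b : Bi d, IsImForm τ W b := by
  have hf : ∀ x y : ℝ × Cm d, (∑ i, ∑ j, W i j *
      Sum.elim (fun k => (x.1 : ℂ) * τ k) x.2 i * conj (Sum.elim (fun k => (y.1 : ℂ) * τ k) y.2 j)).im
      = (∑ i, ∑ j, W i j * tv τ x i * conj (tv τ y j)).im := fun x y => rfl
  set B : (ℝ × Cm d) →ₗ[ℝ] (ℝ × Cm d) →ₗ[ℝ] ℝ := LinearMap.mk₂ ℝ
    (fun x y => (∑ i, ∑ j, W i j * tv τ x i * conj (tv τ y j)).im)
    (fun x x' y => by
      rw [← Complex.add_im, ← Finset.sum_add_distrib]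
      congr 1
      refine Finset.sum_congr rfl fun i _ => ?_
      rw [← Finset.sum_add_distrib]
      refine Finset.sum_congr rfl fun j _ => ?_
      rw [tv_add]
      ring)
    (fun c x y => by
      rw [smul_eq_mul, ← Complex.im_ofReal_mul, Finset.mul_sum]
      congr 1
      refine Finset.sum_congr rfl fun i _ => ?_
      rw [Finset.mul_sum]
      refine Finset.sum_congr rfl fun j _ => ?_
      rw [tv_smul]
      ring)
    (fun x y y' => by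
      rw [← Complex.add_im, ← Finset.sum_add_distrib]
      congr 1
      refine Finset.sum_congr rfl fun i _ => ?_
      rw [← Finset.sum_add_distrib]
      refine Finset.sum_congr rfl fun j _ => ?_
      rw [tv_add, map_add]
      ring)
    (fun c x y => by
      rw [smul_eq_mul, ← Complex.im_ofReal_mul, Finset.mul_sum]
      congr 1
      refine Finset.sum_congr rfl fun i _ => ?_
      rw [Finset.mul_sum]
      refine Finset.sum_congr rfl fun j _ => ?_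
      rw [tv_smul, map_mul, Complex.conj_ofReal]
      ring) with hB
  refine ⟨LinearMap.toContinuousLinearMap ((LinearMap.toContinuousLinearMap :
    ((ℝ × Cm d) →ₗ[ℝ] ℝ) ≃ₗ[ℝ] ((ℝ × Cm d) →L[ℝ] ℝ)).toLinearMap ∘ₗ B), fun x y => ?_⟩
  rw [hf]
  rfl

/-- the form of a Hermitian matrix -/
def imForm {p d : ℕ} (τ : Cm p) (W : Matrix (Fin p ⊕ Fin d) (Fin p ⊕ Fin d) ℂ) : Bi d :=
  (exists_imForm τ W).choose

theorem imForm_apply {p d : ℕ} (τ : Cm p) (W : Matrix (Fin p ⊕ Fin d) (Fin p ⊕ Fin d) ℂ)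
    (x y : ℝ × Cm d) : imForm τ W x y = (∑ i, ∑ j, W i j * tv τ x i * conj (tv τ y j)).im :=
  (exists_imForm τ W).choose_spec x y

theorem isImForm {p d : ℕ} (τ : Cm p) (W : Matrix (Fin p ⊕ Fin d) (Fin p ⊕ Fin d) ℂ) :
    IsImForm (d := d) τ W (imForm τ W) :=
  (exists_imForm τ W).choose_spec

/-- the point number `s` of the segment -/
def par {p : ℕ} (t τ : Cm p) (s : ℝ) : Cm p := t + (s : ℂ) • τ

theorem par_zero {p : ℕ} (t τ : Cm p) : par t τ 0 = t := by simp [par]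

theorem par_smooth {p d : ℕ} (t τ : Cm p) :
    ContDiff ℝ ∞ (fun q : ℝ × Cm d => (par t τ q.1, q.2)) := by
  unfold par
  have h1 : ContDiff ℝ ∞ fun q : ℝ × Cm d => ((q.1 : ℂ)) :=
    Complex.ofRealCLM.contDiff.comp contDiff_fst
  exact (contDiff_const.add (h1.smul contDiff_const)).prodMk contDiff_snd

variable {p d : ℕ} {E Γ : Type} [TopologicalSpace E] [Group Γ] [MulAction Γ E]

/-- a smooth family of real functions, additive with constant periods -/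
structure SF (𝓕 : Fam p d E Γ) (T' : Set (Cm p)) (u : Cm p → E → ℝ) (φ : Γ → ℝ) : Prop where
  smooth : ∀ i, ∀ t ∈ T', ∀ z ∈ ball (0 : Cm d) 3,
    ContDiffAt ℝ ∞ (fun q : Cm p × Cm d => u q.1 (𝓕.σ i q.1 q.2)) (t, z)
  add : ∀ t ∈ T', ∀ γ e, u t (γ • e) = u t e + φ γ

/-- a function in the coordinates `(s, z)` of the sheet `i` -/
def UU (𝓕 : Fam p d E Γ) (t τ : Cm p) (u : Cm p → E → ℝ) (i : Fin 𝓕.N) (q : ℝ × Cm d) : ℝ :=
  u (par t τ q.1) (𝓕.σ i (par t τ q.1) q.2)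

/-- the forms `dU ⊗ dU'`, `ω`, …, `ω` -/
def bb (𝓕 : Fam p d E Γ)
    (W : Fin 𝓕.N → Cm p × Cm d → Matrix (Fin p ⊕ Fin d) (Fin p ⊕ Fin d) ℂ) (t τ : Cm p)
    (u u' : Cm p → E → ℝ) (i : Fin 𝓕.N) (q : ℝ × Cm d) (k : Fin d) : Bi d :=
  if k.val = 0 then
    (fderiv ℝ (UU 𝓕 t τ u i) q).smulRight (fderiv ℝ (UU 𝓕 t τ u' i) q)
  else imForm τ (W i (par t τ q.1, q.2))

/-- the vector field -/
def VV (𝓕 : Fam p d E Γ)
    (W : Fin 𝓕.N → Cm p × Cm d → Matrix (Fin p ⊕ Fin d) (Fin p ⊕ Fin d) ℂ) (t τ : Cm p)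
    (u u' : Cm p → E → ℝ) (i : Fin 𝓕.N) (q : ℝ × Cm d) : ℝ × Cm d :=
  vec (bb 𝓕 W t τ u u' i q)

section
variable {𝓕 : Fam p d E Γ}
  {W : Fin 𝓕.N → Cm p × Cm d → Matrix (Fin p ⊕ Fin d) (Fin p ⊕ Fin d) ℂ} {t τ : Cm p}
  {T' : Set (Cm p)} {u u' : Cm p → E → ℝ} {φ φ' : Γ → ℝ}

theorem UU_smooth (hu : SF 𝓕 T' u φ) (i : Fin 𝓕.N) {s : ℝ} (hs : par t τ s ∈ T') {z : Cm d}
    (hz : z ∈ ball (0 : Cm d) 3) : ContDiffAt ℝ ∞ (UU 𝓕 t τ u i) (s, z) :=
  ContDiffAt.comp (f := fun q : ℝ × Cm d => (par t τ q.1, q.2))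
    (g := fun q : Cm p × Cm d => u q.1 (𝓕.σ i q.1 q.2)) (s, z)
    (hu.smooth i (par t τ s) hs z hz) (par_smooth t τ).contDiffAt

theorem bb_prop (hA5 : Alg5Stmt) (hW : KFam 𝓕 W) (hT' : T' ⊆ 𝓕.T) (hu : SF 𝓕 T' u φ)
    (hu' : SF 𝓕 T' u' φ') (i : Fin 𝓕.N) {s : ℝ} (hs : par t τ s ∈ T') {z : Cm d}
    (hz : z ∈ ball (0 : Cm d) 3) (k : Fin d) :
    ContDiffAt ℝ ∞ (fun q => bb 𝓕 W t τ u u' i q k) (s, z) ∧
      ClosedB (fderiv ℝ (fun q => bb 𝓕 W t τ u u' i q k) (s, z)) := by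
  unfold bb
  by_cases hk : k.val = 0
  · simp only [hk, if_true]
    exact hA5.2 d _ _ _ (UU_smooth hu i hs hz) (UU_smooth hu' i hs hz)
  · simp only [hk, if_false]
    refine hA5.1 p d τ (W i) t (s, z) _ (fun a c => hW.smooth i _ (hT' hs) z hz a c) ?_
      (fun a c e => hW.closed i _ (hT' hs) z hz a c e)
      (Eventually.of_forall fun x => isImForm τ _)
    have h1 : ∀ᶠ q : Cm p × Cm d in 𝓝 (par t τ s, z), q.1 ∈ 𝓕.T ∧ q.2 ∈ ball (0 : Cm d) 3 :=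
      ((continuous_fst.tendsto _).eventually (𝓕.isOpen.mem_nhds (hT' hs))).and
        ((continuous_snd.tendsto _).eventually (isOpen_ball.mem_nhds hz))
    filter_upwards [h1] with q hq
    exact (hW.posDef i q.1 hq.1 q.2 hq.2).isHermitian

/-- smoothness of `vec` -/
theorem vec_smooth {b : ℝ × Cm d → Fin d → Bi d} {q : ℝ × Cm d}
    (hb : ∀ k, ContDiffAt ℝ ∞ (fun q => b q k) q) : ContDiffAt ℝ ∞ (fun q => vec (b q)) q := by
  unfold vec
  refine ContDiffAt.sum fun π _ => ContDiffAt.smul_const (contDiffAt_const.mul ?_) _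
  refine contDiffAt_prod fun k _ => ?_
  exact ((hb k).clm_apply contDiffAt_const).clm_apply contDiffAt_const

theorem VV_smooth (hA5 : Alg5Stmt) (hW : KFam 𝓕 W) (hT' : T' ⊆ 𝓕.T) (hu : SF 𝓕 T' u φ)
    (hu' : SF 𝓕 T' u' φ') (i : Fin 𝓕.N) {s : ℝ} (hs : par t τ s ∈ T') {z : Cm d}
    (hz : z ∈ ball (0 : Cm d) 3) : ContDiffAt ℝ ∞ (VV 𝓕 W t τ u u' i) (s, z) :=
  vec_smooth fun k => (bb_prop hA5 hW hT' hu hu' i hs hz k).1

theorem VV_div (hA2 : Alg2Stmt) (hA5 : Alg5Stmt) (hW : KFam 𝓕 W) (hT' : T' ⊆ 𝓕.T)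
    (hu : SF 𝓕 T' u φ) (hu' : SF 𝓕 T' u' φ') (i : Fin 𝓕.N) {s : ℝ} (hs : par t τ s ∈ T')
    {z : Cm d} (hz : z ∈ ball (0 : Cm d) 3) :
    ∑ a, cd a (fderiv ℝ (VV 𝓕 W t τ u u' i) (s, z) (bas a)) = 0 :=
  hA2 d (bb 𝓕 W t τ u u' i) (s, z)
    (fun k => (bb_prop hA5 hW hT' hu hu' i hs hz k).1.differentiableAt (by simp))
    (fun k => (bb_prop hA5 hW hT' hu hu' i hs hz k).2)

/-- the change of coordinates `(s, z) ↦ (s, θ (t + s τ, z))` -/
def Ph (t τ : Cm p) (θ : Cm p × Cm d → Cm d) (q : ℝ × Cm d) : ℝ × Cm d :=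
  (q.1, θ (par t τ q.1, q.2))

theorem hasDerivAt_par (t τ : Cm p) (s : ℝ) : HasDerivAt (fun s => par t τ s) τ s := by
  unfold par
  have h1 : HasDerivAt (fun s : ℝ => ((s : ℂ))) 1 s := Complex.ofRealCLM.hasDerivAt
  have h2 := (h1.smul_const τ).const_add t
  rwa [one_smul] at h2

/-- the differential of the map above -/
theorem hasFDerivAt_Ph {θ : Cm p × Cm d → Cm d} {s : ℝ} {z : Cm d}
    (hθ : DifferentiableAt ℂ θ (par t τ s, z)) :
    HasFDerivAt (Ph t τ θ) ((ContinuousLinearMap.fst ℝ ℝ (Cm d)).prod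
      (((fderiv ℂ θ (par t τ s, z)).restrictScalars ℝ).comp
        (((ContinuousLinearMap.fst ℝ ℝ (Cm d)).smulRight τ).prod
          (ContinuousLinearMap.snd ℝ ℝ (Cm d))))) (s, z) := by
  have h1 : HasFDerivAt (fun q : ℝ × Cm d => (par t τ q.1, q.2))
      (((ContinuousLinearMap.fst ℝ ℝ (Cm d)).smulRight τ).prod
          (ContinuousLinearMap.snd ℝ ℝ (Cm d))) (s, z) := by
    refine HasFDerivAt.prodMk ?_ hasFDerivAt_snd
    have h2 := (hasDerivAt_par t τ s).hasFDerivAt.comp (s, z)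
      (hasFDerivAt_fst (𝕜 := ℝ) (p := ((s, z) : ℝ × Cm d)))
    have h3 : ((ContinuousLinearMap.toSpanSingleton ℝ τ).comp
        (ContinuousLinearMap.fst ℝ ℝ (Cm d))) =
        (ContinuousLinearMap.fst ℝ ℝ (Cm d)).smulRight τ := by
      ext x <;> simp
    rw [← h3]
    exact h2
  have h2 : HasFDerivAt θ ((fderiv ℂ θ (par t τ s, z)).restrictScalars ℝ) (par t τ s, z) :=
    hθ.hasFDerivAt.restrictScalars ℝ
  exact hasFDerivAt_fst.prodMk (HasFDerivAt.comp (s, z) h2 h1)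

end

end Vale.Agent.P281.H511.TK
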