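import Vale.Agent.P281.H511.TK.Spec

/-!
# P281, project T-K, block FLAT (helper511): partition of unity on a family
-/

open Set Filter Metric MeasureTheory Vale.Agent.P272.K Vale.Agent.P281.H64.TK
open scoped Topology ContDiff ComplexConjugate ComplexOrder Manifold

noncomputable section

namespace Vale.Agent.P281.H511.TK

/-- a smooth cut-off function -/
theorem exists_cut (d : ℕ) : ∃ χ : Cm d → ℝ, ContDiff ℝ ∞ χ ∧ (∀ z, 0 ≤ χ z) ∧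
    (∀ z, ‖z‖ ≤ 1 → χ z = 1) ∧ ∀ z, 2 ≤ ‖z‖ → χ z = 0 := by
  obtain ⟨f, h1, h2, h3⟩ := exists_contMDiffMap_zero_one_of_isClosed (n := ⊤) 𝓘(ℝ, Cm d)
    (M := Cm d) (s := {z : Cm d | 2 ≤ ‖z‖}) (t := closedBall 0 1)
    (isClosed_le continuous_const continuous_norm) isClosed_closedBall (by
      rw [Set.disjoint_left]
      intro z hz hz'
      rw [mem_closedBall, dist_zero_right] at hz'
      have : (2 : ℝ) ≤ ‖z‖ := hz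
      linarith)
  refine ⟨f, f.contMDiff.contDiff, fun z => (h3 z).1, fun z hz => h2 (by simpa using hz),
    fun z hz => h1 hz⟩

/-- the cut-off function -/
def cut (d : ℕ) : Cm d → ℝ := (exists_cut d).choose

theorem cut_smooth (d : ℕ) : ContDiff ℝ ∞ (cut d) := (exists_cut d).choose_spec.1

theorem cut_nonneg {d : ℕ} (z : Cm d) : 0 ≤ cut d z := (exists_cut d).choose_spec.2.1 z

theorem cut_one {d : ℕ} {z : Cm d} (hz : ‖z‖ ≤ 1) : cut d z = 1 :=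
  (exists_cut d).choose_spec.2.2.1 z hz

theorem cut_zero {d : ℕ} {z : Cm d} (hz : 2 ≤ ‖z‖) : cut d z = 0 :=
  (exists_cut d).choose_spec.2.2.2 z hz

variable {p d : ℕ} {E Γ : Type} [TopologicalSpace E] [Group Γ] [MulAction Γ E]

open Classical in
/-- the cut-off function of the sheet `i`, on the manifold number `t` -/
def bmp (𝓕 : Fam p d E Γ) (i : Fin 𝓕.N) (t : Cm p) (e : E) : ℝ :=
  if h : ∃ z : Cm d, z ∈ ball (0 : Cm d) 3 ∧ ∃ γ : Γ, γ • 𝓕.σ i t z = e then cut d h.choose else 0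

variable {𝓕 : Fam p d E Γ}

theorem uniq {i : Fin 𝓕.N} {t : Cm p} (ht : t ∈ 𝓕.T) {γ δ : Γ} {z w : Cm d}
    (hz : z ∈ ball (0 : Cm d) 3) (hw : w ∈ ball (0 : Cm d) 3)
    (h : γ • 𝓕.σ i t z = δ • 𝓕.σ i t w) : γ = δ ∧ z = w := by
  have h1 : (δ⁻¹ * γ) • 𝓕.σ i t z = 𝓕.σ i t w := by rw [mul_smul, h, inv_smul_smul]
  obtain ⟨h2, h3⟩ := 𝓕.inj i t ht z hz w hw _ h1
  exact ⟨(inv_mul_eq_one.1 h2).symm, h3⟩

theorem bmp_eq {i : Fin 𝓕.N} {t : Cm p} (ht : t ∈ 𝓕.T) {γ : Γ} {z : Cm d} {e : E}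
    (hz : z ∈ ball (0 : Cm d) 3) (h : γ • 𝓕.σ i t z = e) : bmp 𝓕 i t e = cut d z := by
  have h0 : ∃ z : Cm d, z ∈ ball (0 : Cm d) 3 ∧ ∃ γ : Γ, γ • 𝓕.σ i t z = e := ⟨z, hz, γ, h⟩
  unfold bmp
  rw [dif_pos h0]
  obtain ⟨h1, δ, h2⟩ := h0.choose_spec
  rw [(uniq ht h1 hz (h2.trans h.symm)).2]

theorem bmp_zero {i : Fin 𝓕.N} {t : Cm p} {e : E}
    (h : ∀ (γ : Γ) (z : Cm d), ‖z‖ ≤ 2 → γ • 𝓕.σ i t z ≠ e) : bmp 𝓕 i t e = 0 := by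
  unfold bmp
  split_ifs with h0
  · obtain ⟨h1, δ, h2⟩ := h0.choose_spec
    refine cut_zero ?_
    by_contra hcon
    exact h δ _ (not_le.1 hcon).le h2
  · rfl

theorem bmp_nonneg (i : Fin 𝓕.N) (t : Cm p) (e : E) : 0 ≤ bmp 𝓕 i t e := by
  unfold bmp
  split_ifs
  · exact cut_nonneg _
  · exact le_rfl

theorem bmp_smul {i : Fin 𝓕.N} {t : Cm p} (ht : t ∈ 𝓕.T) (γ : Γ) (e : E) :
    bmp 𝓕 i t (γ • e) = bmp 𝓕 i t e := by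
  by_cases h : ∃ z : Cm d, z ∈ ball (0 : Cm d) 3 ∧ ∃ γ : Γ, γ • 𝓕.σ i t z = e
  · obtain ⟨z, hz, δ, hδ⟩ := h
    rw [bmp_eq ht hz hδ, bmp_eq (γ := γ * δ) ht hz (by rw [mul_smul, hδ])]
  · have h' : ¬ ∃ z : Cm d, z ∈ ball (0 : Cm d) 3 ∧ ∃ δ : Γ, δ • 𝓕.σ i t z = γ • e := by
      rintro ⟨z, hz, δ, hδ⟩
      exact h ⟨z, hz, γ⁻¹ * δ, by rw [mul_smul, hδ, inv_smul_smul]⟩
    unfold bmp
    rw [dif_neg h, dif_neg h']

/-- the sum of the cut-off functions -/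
def sm (𝓕 : Fam p d E Γ) (t : Cm p) (e : E) : ℝ := ∑ i, bmp 𝓕 i t e

theorem one_le_sm {t : Cm p} (ht : t ∈ 𝓕.T) (e : E) : 1 ≤ sm 𝓕 t e := by
  obtain ⟨γ, i, z, hz, h⟩ := 𝓕.cover t ht e
  have h1 : bmp 𝓕 i t e = 1 := by
    rw [bmp_eq ht (by
      rw [mem_ball, dist_zero_right]
      linarith) h]
    exact cut_one hz.le
  rw [← h1]
  exact Finset.single_le_sum (f := fun i => bmp 𝓕 i t e) (fun j _ => bmp_nonneg j t e)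
    (Finset.mem_univ i)

/-- the partition of unity -/
def rho (𝓕 : Fam p d E Γ) (i : Fin 𝓕.N) (t : Cm p) (e : E) : ℝ := bmp 𝓕 i t e / sm 𝓕 t e

theorem sum_rho {t : Cm p} (ht : t ∈ 𝓕.T) (e : E) : ∑ i, rho 𝓕 i t e = 1 := by
  have h1 : sm 𝓕 t e ≠ 0 := by
    have := one_le_sm ht e
    linarith
  unfold rho
  rw [← Finset.sum_div]
  exact div_self h1

theorem rho_zero {i : Fin 𝓕.N} {t : Cm p} {e : E}
    (h : ∀ (γ : Γ) (z : Cm d), ‖z‖ ≤ 2 → γ • 𝓕.σ i t z ≠ e) : rho 𝓕 i t e = 0 := by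
  unfold rho
  rw [bmp_zero h, zero_div]

theorem rho_smul {i : Fin 𝓕.N} {t : Cm p} (ht : t ∈ 𝓕.T) (γ : Γ) (e : E) :
    rho 𝓕 i t (γ • e) = rho 𝓕 i t e := by
  unfold rho sm
  rw [bmp_smul ht]
  congr 1
  exact Finset.sum_congr rfl fun j _ => bmp_smul ht γ e

theorem tendsto_sheet (j : Fin 𝓕.N) {t : Cm p} (ht : t ∈ 𝓕.T) {z : Cm d}
    (hz : z ∈ ball (0 : Cm d) 3) :
    Tendsto (fun q : Cm p × Cm d => (q.1, 𝓕.σ j q.1 q.2)) (𝓝 (t, z)) (𝓝 (t, 𝓕.σ j t z)) :=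
  (𝓕.map_nhds j t ht z hz).le

theorem bmp_smooth (i j : Fin 𝓕.N) {t : Cm p} (ht : t ∈ 𝓕.T) {z : Cm d}
    (hz : z ∈ ball (0 : Cm d) 3) :
    ContDiffAt ℝ ∞ (fun q : Cm p × Cm d => bmp 𝓕 i q.1 (𝓕.σ j q.1 q.2)) (t, z) := by
  have hT : ∀ᶠ q : Cm p × Cm d in 𝓝 (t, z), q.1 ∈ 𝓕.T :=
    (continuous_fst.tendsto (t, z)).eventually (𝓕.isOpen.mem_nhds ht)
  by_cases h : ∃ (γ : Γ) (w : Cm d), ‖w‖ ≤ 5 / 2 ∧ γ • 𝓕.σ i t w = 𝓕.σ j t z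
  · obtain ⟨γ, w, hw, h⟩ := h
    have hw3 : w ∈ ball (0 : Cm d) 3 := by
      rw [mem_ball, dist_zero_right]
      linarith
    obtain ⟨θ, hθ, hθw, hev⟩ := 𝓕.hol j i t ht z hz w hw3 γ h.symm
    have h1 : ∀ᶠ q in 𝓝 (t, z), θ q ∈ ball (0 : Cm d) 3 :=
      hθ.continuousAt.eventually (isOpen_ball.mem_nhds (by rw [hθw]; exact hw3))
    have h2 : (fun q : Cm p × Cm d => bmp 𝓕 i q.1 (𝓕.σ j q.1 q.2)) =ᶠ[𝓝 (t, z)]
        fun q => cut d (θ q) := by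
      filter_upwards [h1, hev, hT] with q h3 h4 h5
      exact bmp_eq h5 h3 h4.symm
    refine ContDiffAt.congr_of_eventuallyEq ?_ h2
    exact (cut_smooth d).contDiffAt.comp _ (hθ.contDiffAt.restrict_scalars ℝ)
  · push Not at h
    have h1 := 𝓕.closed' i (5 / 2) (by norm_num) t ht (𝓕.σ j t z) (fun γ w hw => h γ w hw)
    have h2 : (fun q : Cm p × Cm d => bmp 𝓕 i q.1 (𝓕.σ j q.1 q.2)) =ᶠ[𝓝 (t, z)]
        fun _ => 0 := by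
      filter_upwards [(tendsto_sheet j ht hz).eventually h1] with q h3
      exact bmp_zero fun γ w hw => h3 γ w (by linarith)
    exact contDiffAt_const.congr_of_eventuallyEq h2

theorem rho_smooth (i j : Fin 𝓕.N) {t : Cm p} (ht : t ∈ 𝓕.T) {z : Cm d}
    (hz : z ∈ ball (0 : Cm d) 3) :
    ContDiffAt ℝ ∞ (fun q : Cm p × Cm d => rho 𝓕 i q.1 (𝓕.σ j q.1 q.2)) (t, z) := by
  have h1 : ContDiffAt ℝ ∞ (fun q : Cm p × Cm d => sm 𝓕 q.1 (𝓕.σ j q.1 q.2)) (t, z) :=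
    ContDiffAt.sum fun k _ => bmp_smooth k j ht hz
  refine (bmp_smooth i j ht hz).div h1 ?_
  have := one_le_sm ht (𝓕.σ j t z)
  show sm 𝓕 t (𝓕.σ j t z) ≠ 0
  linarith

/-- off its support, the function number `i` vanishes locally -/
theorem rho_eventually (i j : Fin 𝓕.N) {t : Cm p} (ht : t ∈ 𝓕.T) {z : Cm d}
    (hz : z ∈ ball (0 : Cm d) 3)
    (h : ∀ (γ : Γ) (w : Cm d), ‖w‖ ≤ 2 → γ • 𝓕.σ i t w ≠ 𝓕.σ j t z) :
    ∀ᶠ q : Cm p × Cm d in 𝓝 (t, z), rho 𝓕 i q.1 (𝓕.σ j q.1 q.2) = 0 := by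
  have h1 := 𝓕.closed' i 2 (by norm_num) t ht (𝓕.σ j t z) h
  filter_upwards [(tendsto_sheet j ht hz).eventually h1] with q h3
  exact rho_zero fun γ w hw => h3 γ w hw

end Vale.Agent.P281.H511.TK
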