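import Vale.Agent.P281.H64.TK.Spec

/-!
# P281, project T-K, block FLAT (helper511): statements of the algebraic sub-blocks

`R = ℝ × ℂ^d` is the space of the variables `(s, z)`, `s` a real parameter.  The closed form
`dU ∧ dU' ∧ ω^(d-1)` of degree `2 d` on `R` is recorded by the vector field `vec b`:
`a (vec b)` is the coefficient of `a ∧ dU ∧ dU' ∧ ω^(d-1)`, for `b 0 = dU ⊗ dU'`, `b k = ω`, `k ≠ 0`
(alternatization of `a ⊗ b 0 ⊗ ⋯ ⊗ b (d-1)`).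
-/

open Set Filter Metric MeasureTheory Vale.Agent.P272.K Vale.Agent.P281.H64.TK
open scoped Topology ContDiff ComplexConjugate ComplexOrder

noncomputable section

namespace Vale.Agent.P281.H511.TK

/-- The real coordinates of `ℝ × ℂ^d`: `none` is `s`, `(k, false)` is `x_k`, `(k, true)` is `y_k`. -/
abbrev Ix (d : ℕ) : Type := Option (Fin d × Bool)

/-- the coordinate vectors -/
def bas {d : ℕ} : Ix d → ℝ × Cm d
  | none => (1, 0)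
  | some (k, false) => (0, Pi.single k 1)
  | some (k, true) => (0, Pi.single k Complex.I)

/-- the coordinates -/
def cd {d : ℕ} : Ix d → ℝ × Cm d → ℝ
  | none, q => q.1
  | some (k, false), q => (q.2 k).re
  | some (k, true), q => (q.2 k).im

/-- real bilinear forms on `ℝ × ℂ^d` -/
abbrev Bi (d : ℕ) : Type := (ℝ × Cm d) →L[ℝ] (ℝ × Cm d) →L[ℝ] ℝ

/-- see the introduction -/
def vec {d : ℕ} (b : Fin d → Bi d) : ℝ × Cm d :=
  ∑ τ : Equiv.Perm (Ix d), (((Equiv.Perm.sign τ : ℤ) : ℝ) *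
    ∏ k, b k (bas (τ (some (k, false)))) (bas (τ (some (k, true))))) • bas (τ none)

/-- **ALG1** (change of coordinates). Proof: for a linear form `a`, `a (vec b)` is the value on the
basis `bas` of the alternatization of the multilinear form `a ⊗ b 0 ⊗ ⋯`, which is multiplied by
`det L` (alternating forms of top degree). -/
def Alg1Stmt : Prop :=
  ∀ (d : ℕ) (L : (ℝ × Cm d) →L[ℝ] (ℝ × Cm d)) (b b' : Fin d → Bi d),
    (∀ k x y, b' k x y = b k (L x) (L y)) → L (vec b') = L.det • vec b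

/-- `db = 0` (after alternatization): `B = Db` is the derivative. -/
def ClosedB {d : ℕ} (B : (ℝ × Cm d) →L[ℝ] Bi d) : Prop :=
  ∀ x y z, B x y z - B x z y + B y z x - B y x z + B z x y - B z y x = 0

/-- **ALG2** (divergence free). Proof: Leibniz, and group the permutations by `S_3` acting on the slots
`none, (k, false), (k, true)`. -/
def Alg2Stmt : Prop :=
  ∀ (d : ℕ) (b : ℝ × Cm d → Fin d → Bi d) (q : ℝ × Cm d),
    (∀ k, DifferentiableAt ℝ (fun q => b q k) q) →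
    (∀ k, ClosedB (fderiv ℝ (fun q => b q k) q)) →
    ∑ i, cd i (fderiv ℝ (fun q => vec (b q)) q (bas i)) = 0

/-- **ALG3** (the density of `herm`). Proof: by ALG1 with `L (s, ζ) = (s, J ζ)`, `w = Jᵀ conj J`, reduce
to `w = 1`; there `b 0 ↦ (vec b).1` is bilinear, invariant by the changes of sign of the pair
`(x_k, y_k)` and by the permutations of the pairs; the constant is
`κ = (-2)^(d-1) #{f : bijections with f 0 = 0} ≠ 0` (the permutation `f × 1` of `Fin d × Bool` is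
even). -/
def Alg3Stmt : Prop :=
  ∃ κ : ℕ → ℝ, (∀ d, κ d ≠ 0) ∧ ∀ (d : ℕ) (hd : 0 < d) (w : Matrix (Fin d) (Fin d) ℂ)
    (v v' : Cm d) (b : Fin d → Bi d), w.PosDef →
    (∀ ζ ζ' : Cm d, b ⟨0, hd⟩ (0, ζ) (0, ζ') = (∑ k, v k * ζ k).re * (∑ k, v' k * ζ' k).re) →
    (∀ k, k ≠ ⟨0, hd⟩ → ∀ ζ ζ' : Cm d,
      b k (0, ζ) (0, ζ') = (∑ i, ∑ j, w i j * ζ i * conj (ζ' j)).im) →
    (vec b).1 = κ d * (w.det * (w⁻¹ * Matrix.of fun j k => v j * conj (v' k)).trace).im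

/-- **ALG4** (antisymmetry): exchange of `a`, `a'`, `a''` in `a (vec b)`, `b 0 = a' ⊗ a''`. -/
def Alg4Stmt : Prop :=
  ∀ (d : ℕ) (hd : 0 < d) (a a' a'' : (ℝ × Cm d) →L[ℝ] ℝ) (b b₁ b₂ : Fin d → Bi d),
    (∀ k, k ≠ ⟨0, hd⟩ → b₁ k = b k ∧ b₂ k = b k) →
    b ⟨0, hd⟩ = a'.smulRight a'' → b₁ ⟨0, hd⟩ = a.smulRight a'' → b₂ ⟨0, hd⟩ = a''.smulRight a' →
    a' (vec b₁) = - a (vec b) ∧ a (vec b₂) = - a (vec b)

/-- the real form `Im W` of a Hermitian matrix `W` of size `p + d`, on the real submanifold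
`(s, z) ↦ (t₀ + s τ, z)` of `ℂ^p × ℂ^d` -/
def IsImForm {p d : ℕ} (τ : Cm p) (W : Matrix (Fin p ⊕ Fin d) (Fin p ⊕ Fin d) ℂ) (b : Bi d) :
    Prop :=
  ∀ x y : ℝ × Cm d, b x y = (∑ i, ∑ j, W i j *
    Sum.elim (fun k => (x.1 : ℂ) * τ k) x.2 i * conj (Sum.elim (fun k => (y.1 : ℂ) * τ k) y.2 j)).im

/-- **ALG5** (closed forms). -/
def Alg5Stmt : Prop :=
  (∀ (p d : ℕ) (τ : Cm p) (W : Cm p × Cm d → Matrix (Fin p ⊕ Fin d) (Fin p ⊕ Fin d) ℂ)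
    (t₀ : Cm p) (q : ℝ × Cm d) (b : ℝ × Cm d → Bi d),
    (∀ a c, ContDiffAt ℝ ∞ (fun x => W x a c) (t₀ + (q.1 : ℂ) • τ, q.2)) →
    (∀ᶠ x in 𝓝 (t₀ + (q.1 : ℂ) • τ, q.2), (W x).IsHermitian) →
    (∀ a c e, dzT e (fun x => W x a c) (t₀ + (q.1 : ℂ) • τ, q.2) =
      dzT a (fun x => W x e c) (t₀ + (q.1 : ℂ) • τ, q.2)) →
    (∀ᶠ x : ℝ × Cm d in 𝓝 q, IsImForm τ (W (t₀ + (x.1 : ℂ) • τ, x.2)) (b x)) →
    ContDiffAt ℝ ∞ b q ∧ ClosedB (fderiv ℝ b q)) ∧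
  ∀ (d : ℕ) (U U' : ℝ × Cm d → ℝ) (q : ℝ × Cm d), ContDiffAt ℝ ∞ U q → ContDiffAt ℝ ∞ U' q →
    ContDiffAt ℝ ∞ (fun q => (fderiv ℝ U q).smulRight (fderiv ℝ U' q)) q ∧
    ClosedB (fderiv ℝ (fun q => (fderiv ℝ U q).smulRight (fderiv ℝ U' q)) q)

/-- **ALG6**: the determinant of the differential of `(s, z) ↦ (s, θ (s, z))`. -/
def Alg6Stmt : Prop :=
  (∀ (d : ℕ) (c : Cm d) (A : Cm d →L[ℝ] Cm d) (L : (ℝ × Cm d) →L[ℝ] (ℝ × Cm d)),
    (∀ s ζ, L (s, ζ) = (s, s • c + A ζ)) → L.det = A.det) ∧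
  ∀ (d : ℕ) (θ : Cm d → Cm d) (z : Cm d), DifferentiableAt ℂ θ z →
    (fderiv ℝ θ z).det = ‖(jac θ z).det‖ ^ 2

/-- **FL-D** (helper603's remark): near `t₀`, additive functions with the constant real periods
`M.φ k`, jointly smooth (from `C2Stmt` and `DStmt`: real linear combinations of the basis `F t`, the
coefficients are smooth in `t`). -/
def FlDStmt : Prop :=
  ∀ (p d : ℕ) (E Γ : Type) [TopologicalSpace E] [T2Space E] [SimplyConnectedSpace E] [Group Γ]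
    [MulAction Γ E] [ContinuousConstSMul Γ E] (𝓕 : Fam p d E Γ)
    (W : Fin 𝓕.N → Cm p × Cm d → Matrix (Fin p ⊕ Fin d) (Fin p ⊕ Fin d) ℂ), 0 < d → KFam 𝓕 W →
    ∀ (n : ℕ) (M : H64.Mark Γ n), ∀ t₀ ∈ 𝓕.T, ∃ (T' : Set (Cm p)) (hT' : T' ⊆ 𝓕.T)
      (H : Fin n → Cm p → E → ℂ), IsOpen T' ∧ t₀ ∈ T' ∧
      (∀ k (t : Cm p) (ht : t ∈ T'), ∃ c : Γ → ℂ, Add (𝓕.at t (hT' ht)) (H k t) c ∧
        ∀ γ, (c γ).re = M.φ k γ) ∧
      ∀ k i, ∀ t ∈ T', ∀ z ∈ ball (0 : Cm d) 3,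
        ContDiffAt ℝ ∞ (fun q : Cm p × Cm d => H k q.1 (𝓕.σ i q.1 q.2)) (t, z)

end Vale.Agent.P281.H511.TK
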