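import Vale.Agent.P281.H511.TK.Trans

/-!
# P281, project T-K, block FLAT (helper511): Stokes
-/

open Set Filter Metric MeasureTheory Vale.Agent.P272.K Vale.Agent.P281.H64.TK
open scoped Topology ContDiff ComplexConjugate ComplexOrder Manifold Matrix

noncomputable section

namespace Vale.Agent.P281.H511.TK

section linear
variable {d : ℕ}

/-- the coordinates, as linear maps -/
def cdL : Ix d → ((ℝ × Cm d) →L[ℝ] ℝ)
  | none => ContinuousLinearMap.fst ℝ ℝ (Cm d)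
  | some (k, false) => Complex.reCLM.comp ((ContinuousLinearMap.proj k).comp
      (ContinuousLinearMap.snd ℝ ℝ (Cm d)))
  | some (k, true) => Complex.imCLM.comp ((ContinuousLinearMap.proj k).comp
      (ContinuousLinearMap.snd ℝ ℝ (Cm d)))

theorem cdL_apply (a : Ix d) (x : ℝ × Cm d) : cdL a x = cd a x := by
  rcases a with _ | ⟨k, _ | _⟩ <;> rfl

theorem cd_smul (a : Ix d) (c : ℝ) (x : ℝ × Cm d) : cd a (c • x) = c * cd a x := by
  rw [← cdL_apply, ← cdL_apply, map_smul, smul_eq_mul]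

theorem cd_add (a : Ix d) (x y : ℝ × Cm d) : cd a (x + y) = cd a x + cd a y := by
  rw [← cdL_apply, ← cdL_apply, ← cdL_apply, map_add]

theorem sum_cd (x : ℝ × Cm d) : x = ∑ a, cd a x • bas a := by
  rw [Fintype.sum_option, Fintype.sum_prod_type]
  simp only [Fintype.sum_bool]
  refine Prod.ext ?_ ?_
  · simp [cd, bas, Prod.fst_sum]
  · funext l
    simp only [cd, bas, Prod.snd_add, Prod.snd_sum, Prod.smul_snd, Pi.add_apply, smul_zero,
      Pi.zero_apply, Finset.sum_apply, Pi.smul_apply, Pi.single_apply, zero_add]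
    rw [Finset.sum_eq_single l]
    · simp only [if_true]
      rw [Complex.real_smul, Complex.real_smul, mul_one, add_comm]
      exact (Complex.re_add_im _).symm
    · intro b _ hb
      simp [Ne.symm hb]
    · simp

theorem div_mul {g : ℝ × Cm d → ℝ} {X : ℝ × Cm d → ℝ × Cm d} {q : ℝ × Cm d}
    (hg : DifferentiableAt ℝ g q) (hX : DifferentiableAt ℝ X q) :
    ∑ a, cd a (fderiv ℝ (fun q => g q • X q) q (bas a)) =
      fderiv ℝ g q (X q) + g q * ∑ a, cd a (fderiv ℝ X q (bas a)) := by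
  have h1 : ∀ a, fderiv ℝ (fun q => g q • X q) q (bas a) =
      g q • fderiv ℝ X q (bas a) + fderiv ℝ g q (bas a) • X q := by
    intro a
    rw [fderiv_fun_smul hg hX]
    rfl
  simp only [h1, cd_add, cd_smul]
  rw [Finset.sum_add_distrib, Finset.mul_sum, add_comm]
  congr 1
  nth_rewrite 2 [sum_cd (X q)]
  rw [map_sum]
  refine Finset.sum_congr rfl fun a _ => ?_
  rw [map_smul, smul_eq_mul, mul_comm]

/-- the integral of a spatial derivative -/
theorem int_zero {X : ℝ × Cm d → ℝ × Cm d}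
    (hX : ∀ z ∈ ball (0 : Cm d) 3, ContDiffAt ℝ 1 X (0, z))
    (h0 : ∀ z ∈ ball (0 : Cm d) 3, 2 < ‖z‖ → ∀ᶠ q in 𝓝 ((0 : ℝ), z), X q = 0)
    (a : Ix d) (v : Cm d) :
    ∫ z in closedBall (0 : Cm d) 2, cd a (fderiv ℝ X (0, z) (0, v)) = 0 := by
  classical
  set g : Cm d → ℝ := fun z => if z ∈ ball (0 : Cm d) 3 then cd a (X (0, z)) else 0 with hg
  have h1 : ∀ z ∈ ball (0 : Cm d) 3, g =ᶠ[𝓝 z] fun z => cdL a (X (0, z)) := by
    intro z hz
    filter_upwards [isOpen_ball.mem_nhds hz] with w hw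
    rw [hg]
    simp only [hw, if_true]
    rw [cdL_apply]
  have hemb : ∀ z : Cm d, HasFDerivAt (fun z : Cm d => ((0 : ℝ), z))
      (ContinuousLinearMap.inr ℝ ℝ (Cm d)) z := fun z => hasFDerivAt_prodMk_right _ _
  have h2 : ∀ z : Cm d, 2 < ‖z‖ → ∀ᶠ w in 𝓝 z, g w = 0 := by
    intro z hz
    by_cases hz3 : z ∈ ball (0 : Cm d) 3
    · have h3 : Tendsto (fun z : Cm d => ((0 : ℝ), z)) (𝓝 z) (𝓝 (0, z)) :=
        (hemb z).continuousAt.tendsto
      filter_upwards [h1 z hz3, h3.eventually (h0 z hz3 hz)] with w h4 h5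
      rw [h4, h5, map_zero]
    · have h4 : ∀ᶠ w in 𝓝 z, 2 < ‖w‖ := (isOpen_lt continuous_const continuous_norm).mem_nhds hz
      filter_upwards [h4] with w h5
      by_cases hw3 : w ∈ ball (0 : Cm d) 3
      · have h6 : g w = cdL a (X (0, w)) := (h1 w hw3).self_of_nhds
        rw [h6, (h0 w hw3 h5).self_of_nhds, map_zero]
      · rw [hg]
        simp only [hw3, if_false]
  have hsm : ContDiff ℝ 1 g := by
    rw [contDiff_iff_contDiffAt]
    intro z
    by_cases hz : z ∈ ball (0 : Cm d) 3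
    · refine ContDiffAt.congr_of_eventuallyEq ?_ (h1 z hz)
      refine (cdL a).contDiff.contDiffAt.comp z ?_
      exact ContDiffAt.comp (f := fun z : Cm d => ((0 : ℝ), z)) (g := X) z (hX z hz)
        (contDiffAt_const.prodMk contDiffAt_id)
    · have h3 : 2 < ‖z‖ := by
        rw [mem_ball, dist_zero_right, not_lt] at hz
        linarith
      have h4 : g =ᶠ[𝓝 z] fun _ => 0 := h2 z h3
      exact contDiffAt_const.congr_of_eventuallyEq h4
  have hcs : HasCompactSupport g := by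
    refine HasCompactSupport.of_support_subset_isCompact (isCompact_closedBall (0 : Cm d) 2) ?_
    intro z hz
    by_contra hcon
    rw [mem_closedBall, dist_zero_right, not_le] at hcon
    exact hz (h2 z hcon).self_of_nhds
  have h5 := gauss hsm hcs v
  have h8 : ∫ z in closedBall (0 : Cm d) 2, fderiv ℝ g z v = ∫ z, fderiv ℝ g z v := by
    refine setIntegral_eq_integral_of_forall_compl_eq_zero fun z hz => ?_
    rw [mem_closedBall, dist_zero_right, not_le] at hz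
    have h6 : g =ᶠ[𝓝 z] fun _ => 0 := h2 z hz
    rw [h6.fderiv_eq]
    simp
  refine Eq.trans ?_ (h8.trans h5)
  · refine setIntegral_congr_fun measurableSet_closedBall fun z hz => ?_
    have hz3 : z ∈ ball (0 : Cm d) 3 := closedBall_subset_ball (by norm_num) hz
    have h6 : HasFDerivAt X (fderiv ℝ X (0, z)) (0, z) :=
      ((hX z hz3).differentiableAt (by simp)).hasFDerivAt
    have h7 := ((cdL a).hasFDerivAt.comp z (h6.comp z (hemb z))).congr_of_eventuallyEq (h1 z hz3)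
    show cd a (fderiv ℝ X (0, z) (0, v)) = fderiv ℝ g z v
    rw [h7.fderiv, ← cdL_apply]
    rfl

end linear

variable {p d : ℕ} {E Γ : Type} [TopologicalSpace E] [Group Γ] [MulAction Γ E]

/-- the fundamental domain -/
def PP (𝓕 : Fam p d E Γ) (t : Cm p) (j : Fin 𝓕.N) : Set (Cm d) :=
  {z | ‖z‖ < 1 ∧ ∀ i, i < j → ∀ (γ : Γ) (w : Cm d), ‖w‖ < 1 → γ • 𝓕.σ i t w ≠ 𝓕.σ j t z}

variable {𝓕 : Fam p d E Γ}
  {W : Fin 𝓕.N → Cm p × Cm d → Matrix (Fin p ⊕ Fin d) (Fin p ⊕ Fin d) ℂ} {t τ : Cm p}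
  {T' : Set (Cm p)} {u u' : Cm p → E → ℝ} {φ φ' : Γ → ℝ}

theorem PP_eq (ht : t ∈ 𝓕.T) (j : Fin 𝓕.N) : (𝓕.at t ht).P j = PP 𝓕 t j := rfl

/-- the function number `i` of the partition of unity, in the sheet `j` -/
def RR (𝓕 : Fam p d E Γ) (t τ : Cm p) (i j : Fin 𝓕.N) (q : ℝ × Cm d) : ℝ :=
  rho 𝓕 i (par t τ q.1) (𝓕.σ j (par t τ q.1) q.2)

theorem RR_smooth (i j : Fin 𝓕.N) {s : ℝ} (hs : par t τ s ∈ 𝓕.T) {z : Cm d}
    (hz : z ∈ ball (0 : Cm d) 3) : ContDiffAt ℝ ∞ (RR 𝓕 t τ i j) (s, z) :=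
  ContDiffAt.comp (f := fun q : ℝ × Cm d => (par t τ q.1, q.2))
    (g := fun q : Cm p × Cm d => rho 𝓕 i q.1 (𝓕.σ j q.1 q.2)) (s, z)
    (rho_smooth i j hs hz) (par_smooth t τ).contDiffAt

theorem par_mem (hT'o : IsOpen T') {s : ℝ} (hs : par t τ s ∈ T') (z : Cm d) :
    ∀ᶠ q : ℝ × Cm d in 𝓝 (s, z), par t τ q.1 ∈ T' := by
  have h1 : ∀ᶠ q : Cm p × Cm d in 𝓝 (par t τ s, z), q.1 ∈ T' :=
    (continuous_fst.tendsto _).eventually (hT'o.mem_nhds hs)
  exact (par_tendsto (d := d) t τ s z).eventually h1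

/-- localization of an integral -/
theorem int_local [ContinuousConstSMul Γ E] (ht : t ∈ 𝓕.T) {D : Fin 𝓕.N → Cm d → ℝ}
    (hD : ∀ j, ContinuousOn (D j) (ball 0 3)) (hd : IsDens (𝓕.at t ht) D) :
    ∑ j, ∫ z in PP 𝓕 t j, D j z =
      ∑ i, ∫ z in closedBall (0 : Cm d) 2, rho 𝓕 i t (𝓕.σ i t z) * D i z := by
  have hrc : ∀ i j, ContinuousOn (fun z => rho 𝓕 i t (𝓕.σ j t z)) (ball (0 : Cm d) 3) := by
    intro i j z hz
    have h1 : ContinuousAt (fun q : Cm p × Cm d => rho 𝓕 i q.1 (𝓕.σ j q.1 q.2)) (t, z) :=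
      (rho_smooth i j ht hz).continuousAt
    exact (ContinuousAt.comp_of_eq (f := fun z : Cm d => (t, z)) h1 (by fun_prop)
      rfl).continuousWithinAt
  have hDc : ∀ i j, ContinuousOn (fun z => rho 𝓕 i t (𝓕.σ j t z) * D j z)
      (ball (0 : Cm d) 3) := fun i j => (hrc i j).mul (hD j)
  have h1 : ∀ i, ∫ z in closedBall (0 : Cm d) 2, rho 𝓕 i t (𝓕.σ i t z) * D i z =
      ∑ j, ∫ z in PP 𝓕 t j, rho 𝓕 i t (𝓕.σ j t z) * D j z := by
    intro i
    refine int_piece (𝓕.at t ht) (D := fun j z => rho 𝓕 i t (𝓕.σ j t z) * D j z) (hDc i) ?_ i ?_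
    · intro j k z hz w hw γ θ hθ hθw hev
      have h2 : 𝓕.σ j t z = γ • 𝓕.σ k t w := by
        have := hev.self_of_nhds
        rw [hθw] at this
        exact this
      show rho 𝓕 i t (𝓕.σ j t z) * D j z = _ * (rho 𝓕 i t (𝓕.σ k t w) * D k w)
      rw [h2, rho_smul ht, hd j k z hz w hw γ θ hθ hθw hev]
      ring
    · intro j z hz hne
      by_contra hcon
      push Not at hcon
      exact hne (mul_eq_zero_of_left (rho_zero (𝓕 := 𝓕) fun γ w hw => hcon γ w hw) _)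
  rw [Finset.sum_congr rfl fun i _ => h1 i, Finset.sum_comm]
  refine Finset.sum_congr rfl fun j _ => ?_
  rw [← integral_finsetSum]
  · refine integral_congr_ae (Eventually.of_forall fun z => ?_)
    show D j z = ∑ i, rho 𝓕 i t (𝓕.σ j t z) * D j z
    rw [← Finset.sum_mul, sum_rho ht, one_mul]
  · intro i _
    exact H864.K.integrableOn_P (𝓕.at t ht) j (hDc i j)

/-- **Stokes** -/
theorem stokes [ContinuousConstSMul Γ E] (hA1 : Alg1Stmt) (hA2 : Alg2Stmt) (hA5 : Alg5Stmt)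
    (hA6 : Alg6Stmt) (hT'o : IsOpen T') (hW : KFam 𝓕 W) (hT' : T' ⊆ 𝓕.T)
    (hu : SF 𝓕 T' u φ) (hu' : SF 𝓕 T' u' φ') (ht : t ∈ T') :
    HasDerivAt (fun s => ∑ j, ∫ z in PP 𝓕 (par t τ s) j, (VV 𝓕 W t τ u u' j (s, z)).1) 0 0 := by
  have h23 : closedBall (0 : Cm d) 2 ⊆ ball 0 3 := closedBall_subset_ball (by norm_num)
  -- a neighbourhood of `0`
  obtain ⟨ε, hε, hmem⟩ : ∃ ε > 0, ∀ s : ℝ, |s| < ε → par t τ s ∈ T' := by
    have h1 : ∀ᶠ s in 𝓝 (0 : ℝ), par t τ s ∈ T' := by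
      refine (hasDerivAt_par t τ 0).continuousAt.eventually (hT'o.mem_nhds ?_)
      show par t τ 0 ∈ T'
      rwa [par_zero]
    obtain ⟨ε, hε, h2⟩ := Metric.eventually_nhds_iff.1 h1
    exact ⟨ε, hε, fun s hs => h2 (by simpa using hs)⟩
  have hp0 : par t τ 0 ∈ T' := by rwa [par_zero]
  have hVs : ∀ (i : Fin 𝓕.N) (s : ℝ), par t τ s ∈ T' → ∀ z ∈ ball (0 : Cm d) 3,
      ContDiffAt ℝ ∞ (VV 𝓕 W t τ u u' i) (s, z) :=
    fun i s hs z hz => VV_smooth hA5 hW hT' hu hu' i hs hz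
  -- the law of change of coordinates, for a given change of coordinates
  have hchg : ∀ (s : ℝ) (hs : par t τ s ∈ T') (i j : Fin 𝓕.N), ∀ z ∈ ball (0 : Cm d) 3,
      ∀ w ∈ ball (0 : Cm d) 3, ∀ (γ : Γ) (θ : Cm d → Cm d), AnalyticAt ℂ θ z → θ z = w →
      (∀ᶠ v in 𝓝 z, 𝓕.σ i (par t τ s) v = γ • 𝓕.σ j (par t τ s) (θ v)) →
      ∃ Θ : Cm p × Cm d → Cm d, AnalyticAt ℂ Θ (par t τ s, z) ∧ Θ (par t τ s, z) = w ∧
        (∀ᶠ q in 𝓝 (par t τ s, z), 𝓕.σ i q.1 q.2 = γ • 𝓕.σ j q.1 (Θ q)) ∧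
        (fderiv ℝ (Ph t τ Θ) (s, z)).det = ‖(jac θ z).det‖ ^ 2 := by
    intro s hs i j z hz w hw γ θ hθ hθw hev
    have h1 : 𝓕.σ i (par t τ s) z = γ • 𝓕.σ j (par t τ s) w := by
      have := hev.self_of_nhds
      rwa [hθw] at this
    obtain ⟨Θ, g1, g2, g3⟩ := 𝓕.hol i j _ (hT' hs) z hz w hw γ h1
    refine ⟨Θ, g1, g2, g3, ?_⟩
    have h2 : Tendsto (fun v : Cm d => (par t τ s, v)) (𝓝 z) (𝓝 (par t τ s, z)) :=
      (by fun_prop : Continuous fun v : Cm d => (par t τ s, v)).tendsto z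
    have h3 : (fun v => Θ (par t τ s, v)) =ᶠ[𝓝 z] θ := by
      refine theta_unique (𝓕.at _ (hT' hs)) (i := i) (j := j) hw (γ := γ) (γ' := γ) ?_
        hθ.continuousAt g2 hθw (h2.eventually g3) hev
      exact ContinuousAt.comp_of_eq (f := fun v : Cm d => (par t τ s, v)) g1.continuousAt
        h2 rfl
    rw [det_Ph hA6 g1, H864.K.jac_congr h3]
  -- the first component is a density
  have hdens : ∀ (s : ℝ) (hs : par t τ s ∈ T'), IsDens (𝓕.at _ (hT' hs))
      (fun j z => (VV 𝓕 W t τ u u' j (s, z)).1) := by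
    intro s hs i j z hz w hw γ θ hθ hθw hev
    obtain ⟨Θ, g1, g2, g3, g4⟩ := hchg s hs i j z hz w hw γ θ hθ hθw hev
    have h1 := VV_trans hA1 hT'o hW hT' hu hu' hs hz hw g1 g2 g3
    rw [g4, fderiv_Ph g1.differentiableAt] at h1
    exact congrArg Prod.fst h1
  have hc1 : ∀ (s : ℝ) (hs : par t τ s ∈ T') (j : Fin 𝓕.N),
      ContinuousOn (fun z => (VV 𝓕 W t τ u u' j (s, z)).1) (ball (0 : Cm d) 3) := by
    intro s hs j z hz
    have h1 := (hVs j s hs z hz).continuousAt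
    have h2 : ContinuousAt (fun z : Cm d => VV 𝓕 W t τ u u' j (s, z)) z :=
      ContinuousAt.comp_of_eq (f := fun z : Cm d => (s, z)) h1 (by fun_prop) rfl
    exact (continuous_fst.continuousAt.comp h2).continuousWithinAt
  -- localization
  have hloc : ∀ s : ℝ, |s| < ε → ∑ j, ∫ z in PP 𝓕 (par t τ s) j, (VV 𝓕 W t τ u u' j (s, z)).1 =
      ∑ i, ∫ z in closedBall (0 : Cm d) 2,
        (RR 𝓕 t τ i i (s, z) • VV 𝓕 W t τ u u' i (s, z)).1 := by
    intro s hs
    exact int_local (hT' (hmem s hs)) (hc1 s (hmem s hs)) (hdens s (hmem s hs))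
  set X : Fin 𝓕.N → ℝ × Cm d → ℝ × Cm d := fun i q => RR 𝓕 t τ i i q • VV 𝓕 W t τ u u' i q
    with hX
  have hXs : ∀ (i : Fin 𝓕.N) (s : ℝ), |s| < ε → ∀ z ∈ ball (0 : Cm d) 3,
      ContDiffAt ℝ ∞ (X i) (s, z) := fun i s hs z hz =>
    (RR_smooth i i (hT' (hmem s hs)) hz).smul (hVs i s (hmem s hs) z hz)
  have h00 : |(0 : ℝ)| < ε := by simpa using hε
  have hX0 : ∀ i, ∀ z ∈ ball (0 : Cm d) 3, 2 < ‖z‖ → ∀ᶠ q in 𝓝 ((0 : ℝ), z), X i q = 0 := by
    intro i z hz hz2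
    have h1 := rho_eventually i i (hT' hp0) hz (fun γ w hw he => by
      have h2 : w ∈ ball (0 : Cm d) 3 := by
        rw [mem_ball, dist_zero_right]
        linarith
      have h3 := (uniq (𝓕 := 𝓕) (δ := 1) (hT' hp0) h2 hz (by rw [he, one_smul])).2
      rw [h3] at hw
      linarith)
    filter_upwards [(par_tendsto (d := d) t τ 0 z).eventually h1] with q hq
    show rho 𝓕 i (par t τ q.1) (𝓕.σ i (par t τ q.1) q.2) • _ = (0 : ℝ × Cm d)
    rw [hq, zero_smul]
  -- the derivative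
  have hder : ∀ i, HasDerivAt (fun s => ∫ z in closedBall (0 : Cm d) 2, (X i (s, z)).1)
      (∫ z in closedBall (0 : Cm d) 2, fderiv ℝ (fun q => (X i q).1) (0, z) (1, 0)) 0 :=
    fun i => deriv_int (G := fun q => (X i q).1) hε fun s hs z hz =>
      (contDiff_fst.contDiffAt.comp (s, z) (hXs i s hs z hz)).of_le (by simp)
  have hder' : HasDerivAt (fun s => ∑ i, ∫ z in closedBall (0 : Cm d) 2, (X i (s, z)).1)
      (∑ i, ∫ z in closedBall (0 : Cm d) 2, fderiv ℝ (fun q => (X i q).1) (0, z) (1, 0)) 0 :=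
    HasDerivAt.fun_sum fun i _ => hder i
  -- the integrand
  have hV0 : ∀ i : Fin 𝓕.N, ContinuousOn (fun z => VV 𝓕 W t τ u u' i (0, z)) (ball (0 : Cm d) 3) := by
    intro i z hz
    exact (ContinuousAt.comp_of_eq (f := fun z : Cm d => ((0 : ℝ), z))
      (hVs i 0 hp0 z hz).continuousAt (by fun_prop) rfl).continuousWithinAt
  have hR0 : ∀ i j : Fin 𝓕.N, ContinuousOn (fun z => fderiv ℝ (RR 𝓕 t τ i j) (0, z))
      (ball (0 : Cm d) 3) := by
    intro i j z hz
    have h1 : ContinuousAt (fderiv ℝ (RR 𝓕 t τ i j)) (0, z) :=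
      ((RR_smooth i j (hT' hp0) hz).fderiv_right (m := 0) (by simp)).continuousAt
    exact (ContinuousAt.comp_of_eq (f := fun z : Cm d => ((0 : ℝ), z))
      h1 (by fun_prop) rfl).continuousWithinAt
  have hXc : ∀ (i : Fin 𝓕.N) (v : ℝ × Cm d) (a : Ix d),
      ContinuousOn (fun z => cd a (fderiv ℝ (X i) (0, z) v)) (closedBall (0 : Cm d) 2) := by
    intro i v a z hz
    have h1 : ContinuousAt (fderiv ℝ (X i)) (0, z) :=
      ((hXs i 0 h00 z (h23 hz)).fderiv_right (m := 0) (by simp)).continuousAt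
    have h2 : ContinuousAt (fun z : Cm d => fderiv ℝ (X i) (0, z)) z :=
      ContinuousAt.comp_of_eq (f := fun z : Cm d => ((0 : ℝ), z)) h1 (by fun_prop) rfl
    have h3 : ContinuousAt (fun z : Cm d => fderiv ℝ (X i) (0, z) v) z :=
      ContinuousAt.clm_apply h2 continuousAt_const
    have h4 : ContinuousAt (fun z : Cm d => cdL a (fderiv ℝ (X i) (0, z) v)) z :=
      (cdL a).continuous.continuousAt.comp h3
    have h5 : (fun z : Cm d => cdL a (fderiv ℝ (X i) (0, z) v)) =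
        fun z => cd a (fderiv ℝ (X i) (0, z) v) := by
      funext z
      rw [cdL_apply]
    rw [h5] at h4
    exact h4.continuousWithinAt
  have hstep : ∀ i, ∫ z in closedBall (0 : Cm d) 2, fderiv ℝ (fun q => (X i q).1) (0, z) (1, 0) =
      ∫ z in closedBall (0 : Cm d) 2,
        fderiv ℝ (RR 𝓕 t τ i i) (0, z) (VV 𝓕 W t τ u u' i (0, z)) := by
    intro i
    have h1 : ∀ z ∈ closedBall (0 : Cm d) 2,
        fderiv ℝ (fun q => (X i q).1) (0, z) (1, 0) =
        fderiv ℝ (RR 𝓕 t τ i i) (0, z) (VV 𝓕 W t τ u u' i (0, z)) -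
          ∑ a : Fin d × Bool, cd (some a) (fderiv ℝ (X i) (0, z) (bas (some a))) := by
      intro z hz
      have h2 := div_mul (g := RR 𝓕 t τ i i) (X := VV 𝓕 W t τ u u' i) (q := (0, z))
        ((RR_smooth i i (hT' hp0) (h23 hz)).differentiableAt (by simp))
        ((hVs i 0 hp0 z (h23 hz)).differentiableAt (by simp))
      rw [VV_div hA2 hA5 hW hT' hu hu' i hp0 (h23 hz), mul_zero, add_zero,
        Fintype.sum_option] at h2
      have h3 : fderiv ℝ (fun q => (X i q).1) (0, z) (1, 0) =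
          cd none (fderiv ℝ (X i) (0, z) (bas none)) := by
        have h4 : HasFDerivAt (X i) (fderiv ℝ (X i) (0, z)) (0, z) :=
          ((hXs i 0 h00 z (h23 hz)).differentiableAt (by simp)).hasFDerivAt
        rw [h4.fst.fderiv]
        rfl
      rw [h3, ← h2]
      show _ = cd none (fderiv ℝ (X i) (0, z) (bas none)) +
        ∑ a : Fin d × Bool, cd (some a) (fderiv ℝ (X i) (0, z) (bas (some a))) - _
      ring
    rw [setIntegral_congr_fun measurableSet_closedBall h1, integral_sub, integral_finsetSum]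
    · rw [Finset.sum_eq_zero, sub_zero]
      rintro ⟨k, b⟩ -
      have h5 : ∃ v : Cm d, (bas (some (k, b)) : ℝ × Cm d) = (0, v) := by
        cases b <;> exact ⟨_, rfl⟩
      obtain ⟨v, hv⟩ := h5
      rw [hv]
      exact int_zero (fun z hz => (hXs i 0 h00 z hz).of_le (by simp)) (hX0 i) _ v
    · intro a _
      exact (hXc i _ _).integrableOn_compact (isCompact_closedBall _ _)
    · refine ContinuousOn.integrableOn_compact (isCompact_closedBall _ _) ?_
      exact ((hR0 i i).mono h23).clm_apply ((hV0 i).mono h23)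
    · refine ContinuousOn.integrableOn_compact (isCompact_closedBall _ _) ?_
      exact continuousOn_finsetSum _ fun a _ => hXc i _ _
  -- the sum vanishes
  have hpc : ∀ i, ∫ z in closedBall (0 : Cm d) 2,
        fderiv ℝ (RR 𝓕 t τ i i) (0, z) (VV 𝓕 W t τ u u' i (0, z)) =
      ∑ j, ∫ z in (𝓕.at _ (hT' hp0)).P j,
        fderiv ℝ (RR 𝓕 t τ i j) (0, z) (VV 𝓕 W t τ u u' j (0, z)) := by
    intro i
    refine int_piece (𝓕.at _ (hT' hp0))
      (D := fun j z => fderiv ℝ (RR 𝓕 t τ i j) (0, z) (VV 𝓕 W t τ u u' j (0, z)))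
      (fun j => (hR0 i j).clm_apply (hV0 j)) ?_ i ?_
    · intro j k z hz w hw γ θ hθ hθw hev
      obtain ⟨Θ, g1, g2, g3, g4⟩ := hchg 0 hp0 j k z hz w hw γ θ hθ hθw hev
      have h1 := VV_trans hA1 hT'o hW hT' hu hu' hp0 hz hw g1 g2 g3
      rw [g4] at h1
      have h2 : (RR 𝓕 t τ i j) =ᶠ[𝓝 (0, z)] fun q => RR 𝓕 t τ i k (Ph t τ Θ q) := by
        filter_upwards [sheet_trans hT'o hp0 g3] with q hq
        show rho 𝓕 i (par t τ q.1) (𝓕.σ j (par t τ q.1) q.2) = _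
        rw [hq.2, rho_smul (𝓕 := 𝓕) (hT' hq.1)]
        rfl
      have h3 : HasFDerivAt (Ph t τ Θ) (fderiv ℝ (Ph t τ Θ) (0, z)) (0, z) := by
        have := hasFDerivAt_Ph (t := t) (τ := τ) g1.differentiableAt
        rw [this.fderiv]
        exact this
      have h4 : HasFDerivAt (RR 𝓕 t τ i k) (fderiv ℝ (RR 𝓕 t τ i k) (0, w))
          (Ph t τ Θ (0, z)) := by
        have h5 : Ph t τ Θ (0, z) = (0, w) := by
          show ((0 : ℝ), Θ (par t τ 0, z)) = (0, w)
          rw [g2]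
        rw [h5]
        exact ((RR_smooth i k (hT' hp0) hw).differentiableAt (by simp)).hasFDerivAt
      have h5 := (h4.comp (0, z) h3).congr_of_eventuallyEq h2
      show fderiv ℝ (RR 𝓕 t τ i j) (0, z) (VV 𝓕 W t τ u u' j (0, z)) = _
      rw [h5.fderiv, ContinuousLinearMap.comp_apply, h1, map_smul, smul_eq_mul]
    · intro j z hz hne
      by_contra hcon
      push Not at hcon
      refine hne ?_
      have h1 := rho_eventually i j (hT' hp0) hz fun γ w hw => hcon γ w hw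
      have h2 : (RR 𝓕 t τ i j) =ᶠ[𝓝 (0, z)] fun _ => 0 := by
        filter_upwards [(par_tendsto (d := d) t τ 0 z).eventually h1] with q hq
        exact hq
      show fderiv ℝ (RR 𝓕 t τ i j) (0, z) (VV 𝓕 W t τ u u' j (0, z)) = 0
      rw [h2.fderiv_eq]
      simp
  have hzero : ∑ i, ∫ z in closedBall (0 : Cm d) 2,
      fderiv ℝ (fun q => (X i q).1) (0, z) (1, 0) = 0 := by
    rw [Finset.sum_congr rfl fun i _ => (hstep i).trans (hpc i), Finset.sum_comm]
    refine Finset.sum_eq_zero fun j _ => ?_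
    rw [← integral_finsetSum]
    · rw [setIntegral_congr_fun (g := fun _ => (0 : ℝ)) (H864.K.meas_P _ j)]
      · simp
      · intro z hz
        have hz3 : z ∈ ball (0 : Cm d) 3 := H864.K.P_subset3 _ j hz
        show ∑ i, fderiv ℝ (RR 𝓕 t τ i j) (0, z) (VV 𝓕 W t τ u u' j (0, z)) = 0
        have h1 : HasFDerivAt (fun q => ∑ i, RR 𝓕 t τ i j q)
            (∑ i, fderiv ℝ (RR 𝓕 t τ i j) (0, z)) (0, z) :=
          HasFDerivAt.fun_sum fun i _ =>
            ((RR_smooth i j (hT' hp0) hz3).differentiableAt (by simp)).hasFDerivAt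
        have h2 : (fun q => ∑ i, RR 𝓕 t τ i j q) =ᶠ[𝓝 (0, z)] fun _ => 1 := by
          filter_upwards [par_mem (d := d) hT'o hp0 z] with q hq
          exact sum_rho (hT' hq) _
        have h3 : ∑ i, fderiv ℝ (RR 𝓕 t τ i j) (0, z) = 0 := by
          rw [← h1.fderiv, h2.fderiv_eq]
          simp
        rw [← sum_apply, h3]
        rfl
    · intro i _
      exact H864.K.integrableOn_P _ j ((hR0 i j).clm_apply (hV0 j))
  rw [hzero] at hder'
  refine hder'.congr_of_eventuallyEq ?_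
  filter_upwards [ball_mem_nhds (0 : ℝ) hε] with s hs
  exact hloc s (by simpa using hs)

end Vale.Agent.P281.H511.TK
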