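import Vale.Agent.P281.H511.TK.Fld

/-!
# P281, project T-K, block FLAT (helper511): change of coordinates of the vector fields
-/

open Set Filter Metric MeasureTheory Vale.Agent.P272.K Vale.Agent.P281.H64.TK
open scoped Topology ContDiff ComplexConjugate ComplexOrder Manifold Matrix

noncomputable section

namespace Vale.Agent.P281.H511.TK

theorem sum_eq_dot {n : Type} [Fintype n] (M : Matrix n n ℂ) (X Y : n → ℂ) :
    ∑ i, ∑ j, M i j * X i * conj (Y j) = X ⬝ᵥ (M *ᵥ (fun j => conj (Y j))) := by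
  simp only [dotProduct, Matrix.mulVec, Finset.mul_sum]
  refine Finset.sum_congr rfl fun i _ => Finset.sum_congr rfl fun j _ => ?_
  ring

theorem sum_change {n : Type} [Fintype n] (M J : Matrix n n ℂ) (X Y : n → ℂ) :
    ∑ i, ∑ j, (J.transpose * M * J.map conj) i j * X i * conj (Y j) =
      ∑ i, ∑ j, M i j * (J *ᵥ X) i * conj ((J *ᵥ Y) j) := by
  rw [sum_eq_dot, sum_eq_dot]
  have h1 : (fun j => conj ((J *ᵥ Y) j)) = (J.map conj) *ᵥ (fun j => conj (Y j)) := by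
    funext j
    simp only [Matrix.mulVec, dotProduct, map_sum, map_mul, Matrix.map_apply]
  rw [h1, ← Matrix.mulVec_mulVec, ← Matrix.mulVec_mulVec, Matrix.dotProduct_mulVec X,
    Matrix.vecMul_transpose]

variable {p d : ℕ} {E Γ : Type} [TopologicalSpace E] [Group Γ] [MulAction Γ E]

theorem tv_sum (τ : Cm p) (x : ℝ × Cm d) :
    ((x.1 : ℂ) • τ, x.2) = ∑ b : Fin p ⊕ Fin d, tv τ x b • (bv b : Cm p × Cm d) := by
  rw [Fintype.sum_sum_type]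
  refine Prod.ext ?_ ?_
  · funext k
    simp [tv, bv, Prod.fst_sum, Finset.sum_apply, Pi.single_apply]
  · funext k
    simp [tv, bv, Prod.snd_sum, Finset.sum_apply, Pi.single_apply]

/-- the differential on the tangent vectors of the submanifold -/
theorem jacT_tv (τ : Cm p) (x : ℝ × Cm d) (θ : Cm p × Cm d → Cm d) (q : Cm p × Cm d) :
    jacT θ q *ᵥ (tv τ x) = tv τ (x.1, fderiv ℂ θ q ((x.1 : ℂ) • τ, x.2)) := by
  funext a
  cases a with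
  | inl k =>
    have h1 := congrArg (fun v : Cm p × Cm d => v.1 k) (tv_sum τ x)
    simp only [Prod.fst_sum, Finset.sum_apply, Prod.smul_fst, Pi.smul_apply, smul_eq_mul] at h1
    show ∑ b, (bv b : Cm p × Cm d).1 k * tv τ x b = (x.1 : ℂ) * τ k
    rw [h1]
    exact Finset.sum_congr rfl fun b _ => mul_comm _ _
  | inr l =>
    show ∑ b, fderiv ℂ θ q (bv b) l * tv τ x b = fderiv ℂ θ q ((x.1 : ℂ) • τ, x.2) l
    rw [tv_sum τ x, map_sum, Finset.sum_apply]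
    refine Finset.sum_congr rfl fun b _ => ?_
    rw [map_smul, Pi.smul_apply, smul_eq_mul, mul_comm]

variable {𝓕 : Fam p d E Γ}
  {W : Fin 𝓕.N → Cm p × Cm d → Matrix (Fin p ⊕ Fin d) (Fin p ⊕ Fin d) ℂ} {t τ : Cm p}
  {T' : Set (Cm p)} {u u' : Cm p → E → ℝ} {φ φ' : Γ → ℝ}

theorem fderiv_Ph {θ : Cm p × Cm d → Cm d} {s : ℝ} {z : Cm d}
    (hθ : DifferentiableAt ℂ θ (par t τ s, z)) (x : ℝ × Cm d) :
    fderiv ℝ (Ph t τ θ) (s, z) x =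
      (x.1, fderiv ℂ θ (par t τ s, z) ((x.1 : ℂ) • τ, x.2)) := by
  rw [(hasFDerivAt_Ph hθ).fderiv]
  rfl

theorem par_tendsto (t τ : Cm p) (s : ℝ) (z : Cm d) :
    Tendsto (fun q : ℝ × Cm d => (par t τ q.1, q.2)) (𝓝 (s, z)) (𝓝 (par t τ s, z)) :=
  (par_smooth t τ).continuous.tendsto (s, z)

/-- the equation of the change of coordinates -/
theorem sheet_trans (hT'o : IsOpen T') {i j : Fin 𝓕.N} {s : ℝ} (hs : par t τ s ∈ T')
    {z : Cm d} {γ : Γ} {θ : Cm p × Cm d → Cm d}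
    (hev : ∀ᶠ q in 𝓝 (par t τ s, z), 𝓕.σ i q.1 q.2 = γ • 𝓕.σ j q.1 (θ q)) :
    ∀ᶠ q : ℝ × Cm d in 𝓝 (s, z), par t τ q.1 ∈ T' ∧
      𝓕.σ i (par t τ q.1) q.2 = γ • 𝓕.σ j (par t τ (Ph t τ θ q).1) (Ph t τ θ q).2 := by
  have h1 := par_tendsto (d := d) t τ s z
  have h2 : ∀ᶠ q : Cm p × Cm d in 𝓝 (par t τ s, z), q.1 ∈ T' :=
    (continuous_fst.tendsto _).eventually (hT'o.mem_nhds hs)
  filter_upwards [h1.eventually hev, h1.eventually h2] with q h3 h4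
  exact ⟨h4, h3⟩

theorem UU_trans (hT'o : IsOpen T') (hu : SF 𝓕 T' u φ) {i j : Fin 𝓕.N} {s : ℝ}
    (hs : par t τ s ∈ T') {z w : Cm d} (hw : w ∈ ball (0 : Cm d) 3)
    {γ : Γ} {θ : Cm p × Cm d → Cm d} (hθ : AnalyticAt ℂ θ (par t τ s, z))
    (hθw : θ (par t τ s, z) = w)
    (hev : ∀ᶠ q in 𝓝 (par t τ s, z), 𝓕.σ i q.1 q.2 = γ • 𝓕.σ j q.1 (θ q)) :
    fderiv ℝ (UU 𝓕 t τ u i) (s, z) =
      (fderiv ℝ (UU 𝓕 t τ u j) (s, w)).comp (fderiv ℝ (Ph t τ θ) (s, z)) := by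
  have h1 : (UU 𝓕 t τ u i) =ᶠ[𝓝 (s, z)] fun q => UU 𝓕 t τ u j (Ph t τ θ q) + φ γ := by
    filter_upwards [sheet_trans hT'o hs hev] with q hq
    show u (par t τ q.1) (𝓕.σ i (par t τ q.1) q.2) = _
    rw [hq.2]
    exact hu.add _ hq.1 γ _
  have h2 : HasFDerivAt (UU 𝓕 t τ u j) (fderiv ℝ (UU 𝓕 t τ u j) (s, w)) (Ph t τ θ (s, z)) := by
    have h3 : Ph t τ θ (s, z) = (s, w) := by
      show (s, θ (par t τ s, z)) = (s, w)
      rw [hθw]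
    rw [h3]
    exact ((UU_smooth hu j hs hw).differentiableAt (by simp)).hasFDerivAt
  have h3 : HasFDerivAt (Ph t τ θ) (fderiv ℝ (Ph t τ θ) (s, z)) (s, z) := by
    have := hasFDerivAt_Ph (t := t) (τ := τ) hθ.differentiableAt
    rw [this.fderiv]
    exact this
  exact (((h2.comp (s, z) h3).add_const (φ γ)).congr_of_eventuallyEq h1).fderiv

theorem bb_trans (hT'o : IsOpen T') (hW : KFam 𝓕 W) (hT' : T' ⊆ 𝓕.T) (hu : SF 𝓕 T' u φ)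
    (hu' : SF 𝓕 T' u' φ') {i j : Fin 𝓕.N} {s : ℝ}
    (hs : par t τ s ∈ T') {z w : Cm d} (hz : z ∈ ball (0 : Cm d) 3) (hw : w ∈ ball (0 : Cm d) 3)
    {γ : Γ} {θ : Cm p × Cm d → Cm d} (hθ : AnalyticAt ℂ θ (par t τ s, z))
    (hθw : θ (par t τ s, z) = w)
    (hev : ∀ᶠ q in 𝓝 (par t τ s, z), 𝓕.σ i q.1 q.2 = γ • 𝓕.σ j q.1 (θ q)) (k : Fin d)
    (x y : ℝ × Cm d) : bb 𝓕 W t τ u u' i (s, z) k x y = bb 𝓕 W t τ u u' j (s, w) k
      (fderiv ℝ (Ph t τ θ) (s, z) x) (fderiv ℝ (Ph t τ θ) (s, z) y) := by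
  unfold bb
  by_cases hk : k.val = 0
  · simp only [hk, if_true]
    rw [UU_trans hT'o hu hs hw hθ hθw hev, UU_trans hT'o hu' hs hw hθ hθw hev]
    rfl
  · simp only [hk, if_false]
    rw [imForm_apply, imForm_apply, fderiv_Ph hθ.differentiableAt, fderiv_Ph hθ.differentiableAt,
      ← jacT_tv τ x θ, ← jacT_tv τ y θ, ← sum_change,
      ← hW.change i j (par t τ s) (hT' hs) z hz w hw γ θ hθ hθw hev]

theorem VV_trans (hA1 : Alg1Stmt) (hT'o : IsOpen T') (hW : KFam 𝓕 W) (hT' : T' ⊆ 𝓕.T)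
    (hu : SF 𝓕 T' u φ) (hu' : SF 𝓕 T' u' φ') {i j : Fin 𝓕.N} {s : ℝ}
    (hs : par t τ s ∈ T') {z w : Cm d} (hz : z ∈ ball (0 : Cm d) 3) (hw : w ∈ ball (0 : Cm d) 3)
    {γ : Γ} {θ : Cm p × Cm d → Cm d} (hθ : AnalyticAt ℂ θ (par t τ s, z))
    (hθw : θ (par t τ s, z) = w)
    (hev : ∀ᶠ q in 𝓝 (par t τ s, z), 𝓕.σ i q.1 q.2 = γ • 𝓕.σ j q.1 (θ q)) :
    fderiv ℝ (Ph t τ θ) (s, z) (VV 𝓕 W t τ u u' i (s, z)) =
      (fderiv ℝ (Ph t τ θ) (s, z)).det • VV 𝓕 W t τ u u' j (s, w) :=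
  hA1 d _ _ _ fun k x y => bb_trans hT'o hW hT' hu hu' hs hz hw hθ hθw hev k x y

theorem det_Ph (hA6 : Alg6Stmt) {s : ℝ} {z : Cm d} {θ : Cm p × Cm d → Cm d}
    (hθ : AnalyticAt ℂ θ (par t τ s, z)) :
    (fderiv ℝ (Ph t τ θ) (s, z)).det = ‖(jac (fun v => θ (par t τ s, v)) z).det‖ ^ 2 := by
  have h0 : HasFDerivAt (𝕜 := ℂ) (fun v : Cm d => θ (par t τ s, v))
      ((fderiv ℂ θ (par t τ s, z)).comp (ContinuousLinearMap.inr ℂ (Cm p) (Cm d))) z :=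
    HasFDerivAt.comp (f := fun v : Cm d => (par t τ s, v)) z hθ.differentiableAt.hasFDerivAt
      (hasFDerivAt_prodMk_right _ _)
  rw [← hA6.2 d _ z h0.differentiableAt]
  refine hA6.1 d (fderiv ℂ θ (par t τ s, z) (τ, 0)) _ _ fun r ζ => ?_
  rw [fderiv_Ph hθ.differentiableAt, (h0.restrictScalars ℝ).fderiv]
  refine Prod.ext rfl ?_
  show fderiv ℂ θ (par t τ s, z) ((r : ℂ) • τ, ζ) = r • fderiv ℂ θ (par t τ s, z) (τ, 0) +
    fderiv ℂ θ (par t τ s, z) (0, ζ)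
  have h1 : (((r : ℂ) • τ, ζ) : Cm p × Cm d) = (r : ℂ) • (τ, 0) + (0, ζ) := by
    refine Prod.ext ?_ ?_ <;> simp
  rw [h1, map_add, map_smul]
  rfl

/-- two changes of coordinates coincide -/
theorem theta_unique [ContinuousConstSMul Γ E] (S : Sheets d E Γ) {i j : Fin S.N} {z w : Cm d}
    (hw : w ∈ ball (0 : Cm d) 3) {γ γ' : Γ} {θ θ' : Cm d → Cm d}
    (hθ : ContinuousAt θ z) (hθ' : ContinuousAt θ' z) (hθw : θ z = w) (hθw' : θ' z = w)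
    (hev : ∀ᶠ v in 𝓝 z, S.σ i v = γ • S.σ j (θ v))
    (hev' : ∀ᶠ v in 𝓝 z, S.σ i v = γ' • S.σ j (θ' v)) : θ =ᶠ[𝓝 z] θ' := by
  have h1 : ∀ᶠ v in 𝓝 z, θ v ∈ ball (0 : Cm d) 3 :=
    hθ.eventually (isOpen_ball.mem_nhds (by rw [hθw]; exact hw))
  have h2 : ∀ᶠ v in 𝓝 z, θ' v ∈ ball (0 : Cm d) 3 :=
    hθ'.eventually (isOpen_ball.mem_nhds (by rw [hθw']; exact hw))
  filter_upwards [h1, h2, hev, hev'] with v h3 h4 h5 h6
  have h7 : (γ'⁻¹ * γ) • S.σ j (θ v) = S.σ j (θ' v) := by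
    rw [mul_smul, ← h5, h6, inv_smul_smul]
  exact (S.inj j _ h3 _ h4 _ h7).2

end Vale.Agent.P281.H511.TK
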